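import Vale.Agent.P057Z.Dr.Sk

/-! Block Dr, row CLS: choice of a class. -/

set_option linter.all false

open Finset
open scoped BigOperators

namespace Vale.Agent.P057Z.Dr

namespace Cls

noncomputable section

variable {Q : ℕ} [Fact Q.Prime] {n r : ℕ}

theorem card_tile (Tt : ℕ) (j : Fin n → ℕ) : #(tile Q n Tt j) ≤ Tt ^ n := by
  rw [tile_eq, Ke.bx_eq_image]
  refine card_image_le.trans (card_image_le.trans (le_of_eq ?_))
  simp [Fintype.card_piFinset]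

theorem card_Sm (K0 : ℕ) : #(Sm (Fin r) K0) = (2 * K0 + 1) ^ r := by
  have h : #(Icc (-(K0 : ℤ)) K0) = 2 * K0 + 1 := by
    rw [Int.card_Icc]; omega
  simp only [Sm, Fintype.card_piFinset, h, prod_const, card_univ, Fintype.card_fin]

/-- the pairs of a frequency and a piece inside the set `U` -/
def pairs (K0 : ℕ) (Fam : (Fin r → ℤ) → Finset (Finset (V Q n))) (U : Finset (V Q n)) :
    Finset ((Fin r → ℤ) × Finset (V Q n)) :=
  (Sm (Fin r) K0).biUnion fun k => ((Fam k).filter (· ⊆ U)).image (Prod.mk k)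

theorem mem_pairs {K0 : ℕ} {Fam : (Fin r → ℤ) → Finset (Finset (V Q n))} {U : Finset (V Q n)}
    {p : (Fin r → ℤ) × Finset (V Q n)} :
    p ∈ pairs K0 Fam U ↔ p.1 ∈ Sm (Fin r) K0 ∧ p.2 ∈ Fam p.1 ∧ p.2 ⊆ U := by
  obtain ⟨k, E⟩ := p
  simp only [pairs, mem_biUnion, mem_image, mem_filter, Prod.mk.injEq]
  constructor
  · rintro ⟨k', hk, E', hE, rfl, rfl⟩
    exact ⟨hk, hE⟩
  · rintro ⟨hk, hE⟩
    exact ⟨k, hk, E, hE, rfl, rfl⟩

theorem card_pairs {K0 : ℕ} {Fam : (Fin r → ℤ) → Finset (Finset (V Q n))} {U : Finset (V Q n)}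
    {η N : ℝ} (hη : 0 < η) (hN : 0 < N) (hU : (#U : ℝ) ≤ N)
    (h1 : ∀ k, ∀ E ∈ Fam k, η * N ≤ #E)
    (h2 : ∀ k, ∀ E ∈ Fam k, ∀ E' ∈ Fam k, E ≠ E' → Disjoint E E') :
    (#(pairs K0 Fam U) : ℝ) ≤ (2 * K0 + 1) ^ r / η := by
  have h3 : ∀ k, (#((Fam k).filter (· ⊆ U)) : ℝ) ≤ 1 / η := fun k => by
    have h4 : ∑ E ∈ (Fam k).filter (· ⊆ U), #E ≤ #U := by
      rw [← card_biUnion (t := fun E => E) fun E hE E' hE' hne =>
        h2 k E (mem_filter.1 hE).1 E' (mem_filter.1 hE').1 hne]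
      exact card_le_card (biUnion_subset.2 fun E hE => (mem_filter.1 hE).2)
    have h5 : (#((Fam k).filter (· ⊆ U)) : ℝ) * (η * N) ≤
        ∑ E ∈ (Fam k).filter (· ⊆ U), (#E : ℝ) := by
      rw [← nsmul_eq_mul]
      exact card_nsmul_le_sum _ _ _ fun E hE => h1 k E (mem_filter.1 hE).1
    have h6 : ∑ E ∈ (Fam k).filter (· ⊆ U), (#E : ℝ) ≤ #U := by exact_mod_cast h4
    rw [le_div_iff₀ hη]
    refine le_of_mul_le_mul_right ?_ hN
    rw [mul_assoc, one_mul]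
    linarith
  have h7 : #(pairs K0 Fam U) ≤ ∑ k ∈ Sm (Fin r) K0, #((Fam k).filter (· ⊆ U)) :=
    card_biUnion_le.trans (sum_le_sum fun k _ => card_image_le)
  calc (#(pairs K0 Fam U) : ℝ) ≤ ∑ k ∈ Sm (Fin r) K0, (#((Fam k).filter (· ⊆ U)) : ℝ) := by
        exact_mod_cast h7
    _ ≤ #(Sm (Fin r) K0) • (1 / η) := sum_le_card_nsmul _ _ _ fun k _ => h3 k
    _ = _ := by rw [card_Sm, nsmul_eq_mul]; push_cast; ring

/-- labels -/
abbrev Lab (Q n r : ℕ) : Type := Σ j : ℕ, Fin j → (Fin r → ℤ) × Finset (V Q n)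

/-- the labels with entries in `P` -/
def labs (P : Finset ((Fin r → ℤ) × Finset (V Q n))) : Finset (Lab Q n r) :=
  (range (r + 1)).sigma fun j => Fintype.piFinset fun _ : Fin j => P

theorem card_labs (P : Finset ((Fin r → ℤ) × Finset (V Q n))) :
    #(labs P) ≤ (r + 1) * (#P + 1) ^ r := by
  rw [labs, card_sigma]
  refine (sum_le_card_nsmul _ _ ((#P + 1) ^ r) fun j hj => ?_).trans (by simp)
  simp only [Fintype.card_piFinset, prod_const, card_univ, Fintype.card_fin]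
  exact (Nat.pow_le_pow_left (Nat.le_succ _) j).trans
    (Nat.pow_le_pow_right (Nat.succ_pos _) (Nat.lt_succ_iff.1 (mem_range.1 hj)))

/-- the label fits the point -/
def Ok (K0 : ℕ) (Fam : (Fin r → ℤ) → Finset (Finset (V Q n))) (d : Lab Q n r) (h : V Q n) : Prop :=
  (∀ i, h ∈ (d.2 i).2) ∧ LinearIndependent (ZMod Q) (fun i => cs Q (d.2 i).1) ∧
    Submodule.span (ZMod Q) (Set.range fun i => cs Q (d.2 i).1) = Ws K0 Fam h

theorem ex_lab {K0 : ℕ} {Fam : (Fin r → ℤ) → Finset (Finset (V Q n))} {U : Finset (V Q n)}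
    {h : V Q n} (hU : ∀ k, ∀ E ∈ Fam k, h ∈ E → E ⊆ U) :
    ∃ d ∈ labs (pairs K0 Fam U), Ok K0 Fam d h := by
  obtain ⟨κ, a, -, h1, h2⟩ := exists_linearIndependent' (ZMod Q)
    fun p : {p : (Fin r → ℤ) × Finset (V Q n) // p ∈ pairs K0 Fam U ∧ h ∈ p.2} => cs Q p.1.1
  have := h2.finite
  have := Fintype.ofFinite κ
  have h3 := h2.fintype_card_le_finrank
  rw [Module.finrank_fin_fun] at h3
  let ε := (Fintype.equivFin κ).symm
  refine ⟨⟨Fintype.card κ, fun i => (a (ε i)).1⟩, ?_, fun i => (a (ε i)).2.2,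
    h2.comp ε ε.injective, ?_⟩
  · rw [labs, mem_sigma, mem_range, Fintype.mem_piFinset]
    exact ⟨Nat.lt_succ_of_le h3, fun i => (a (ε i)).2.1⟩
  · refine (congrArg _ (ε.surjective.range_comp _)).trans (h1.trans (congrArg _ ?_))
    ext x
    constructor
    · rintro ⟨p, rfl⟩
      have := mem_pairs.1 p.2.1
      exact ⟨p.1.1, ⟨this.1, p.1.2, this.2.1, p.2.2⟩, rfl⟩
    · rintro ⟨k, ⟨hk, E, hE, hh⟩, rfl⟩
      exact ⟨⟨(k, E), mem_pairs.2 ⟨hk, hE, hU k E hE hh⟩, hh⟩, rfl⟩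

end

end Cls

open Cls in
theorem cls_of (til : TIL) : CLS := by
  classical
  intro Q _ n r Tt I K0 η κ Fam j0 F hT hI hj0 hη hκ h1 h2 h3
  have hU : ∀ h ∈ tile Q n Tt j0, ∀ k, ∀ E ∈ Fam k, h ∈ E → E ⊆ tile Q n Tt j0 :=
    fun h hh k E hE hhE => by
      obtain ⟨j, hj, hs, -⟩ := h1 k E hE
      rwa [(til Q n).2.2 I Tt j j0 h hI hj hj0 (hs hhE) hh] at hs
  have hTn : (0 : ℝ) < (Tt : ℝ) ^ n := by positivity
  have hP := card_pairs (K0 := K0) (U := tile Q n Tt j0) hη hTn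
    (by exact_mod_cast card_tile Tt j0) (fun k E hE => (h1 k E hE).choose_spec.2.2) h2
  set D := labs (pairs K0 Fam (tile Q n Tt j0)) with hD
  have : Nonempty (Lab Q n r) := ⟨⟨0, Fin.elim0⟩⟩
  have hex : ∀ h ∈ tile Q n Tt j0, ∃ d ∈ D, Ok K0 Fam d h := fun h hh => ex_lab (hU h hh)
  choose! cl hcl using hex
  have hm : ∀ x ∈ bx Q n Tt, x + ctr Q Tt j0 ∈ tile Q n Tt j0 := fun x hx =>
    mem_image_of_mem _ hx
  have hDne : D.Nonempty := ⟨_, (hcl _ (hm 0 (Ke.zero_mem_bx hT))).1⟩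
  have hD0 : (0 : ℝ) < #D := by exact_mod_cast hDne.card_pos
  have hsum : ∑ d ∈ D, κ / #D ≤ ∑ d ∈ D, 𝔼 x ∈ bx Q n Tt, if cl (x + ctr Q Tt j0) = d then
      F (x + ctr Q Tt j0) (Ws K0 Fam (x + ctr Q Tt j0)) else 0 := by
    rw [sum_const, nsmul_eq_mul, mul_div_cancel₀ _ hD0.ne', ← expect_sum_comm]
    refine h3.trans (le_of_eq (expect_congr rfl fun x hx => ?_))
    rw [sum_ite_eq, if_pos (hcl _ (hm x hx)).1]
  obtain ⟨d, hd, hle⟩ := exists_le_of_sum_le hDne hsum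
  have hd' := hd
  rw [hD, labs, mem_sigma, mem_range, Fintype.mem_piFinset] at hd'
  have hcard : (#D : ℝ) ≤ (r + 1) * ((2 * K0 + 1) ^ r / η + 1) ^ r := by
    have h4 : (#D : ℝ) ≤ (r + 1) * (#(pairs K0 Fam (tile Q n Tt j0)) + 1) ^ r := by
      exact_mod_cast card_labs _
    refine h4.trans ?_
    gcongr
  have hfin : κ / ((r + 1) * ((2 * K0 + 1) ^ r / η + 1) ^ r) ≤ κ / #D :=
    div_le_div_of_nonneg_left hκ hD0 hcard
  by_cases hA : ∃ h ∈ tile Q n Tt j0, cl h = d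
  · obtain ⟨h0, hh0, he⟩ := hA
    refine ⟨d.1, fun i => (d.2 i).1, fun i => (d.2 i).2, (tile Q n Tt j0).filter (cl · = d),
      Nat.lt_succ_iff.1 hd'.1, fun i => (mem_pairs.1 (hd'.2 i)).1, (he ▸ (hcl h0 hh0).2).2.1,
      fun i => (mem_pairs.1 (hd'.2 i)).2.1, fun i h hh => ?_, hfin.trans (hle.trans
        (le_of_eq (expect_congr rfl fun x hx => ?_)))⟩
    · obtain ⟨h4, h5⟩ := mem_filter.1 hh
      exact (h5 ▸ (hcl h h4).2).1 i
    · by_cases h4 : cl (x + ctr Q Tt j0) = d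
      · have h5 : Ok K0 Fam d (x + ctr Q Tt j0) := h4 ▸ (hcl _ (hm x hx)).2
        rw [if_pos h4, if_pos (mem_filter.2 ⟨hm x hx, h4⟩), h5.2.2]
      · have h5 : x + ctr Q Tt j0 ∉ (tile Q n Tt j0).filter (cl · = d) :=
          fun h => h4 (mem_filter.1 h).2
        rw [if_neg h4, if_neg h5]
  · refine ⟨0, Fin.elim0, Fin.elim0, ∅, Nat.zero_le _, fun i => i.elim0, linearIndependent_empty_type,
      fun i => i.elim0, fun i => i.elim0, hfin.trans (hle.trans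
        (le_of_eq (expect_congr rfl fun x hx => ?_)))⟩
    rw [if_neg fun h => hA ⟨_, hm x hx, h⟩, if_neg (notMem_empty _)]

end Vale.Agent.P057Z.Dr
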