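import Vale.Agent.P057Z.Dr.Sk

/-! Block Dr: dropping the frequencies outside a subspace. -/

set_option linter.all false

open Finset
open scoped BigOperators

namespace Vale.Agent.P057Z.Dr

noncomputable section

namespace Drp

theorem norm_exp {α : Type} {s : Finset α} (hs : s.Nonempty) {f : α → ℂ} {M : ℝ}
    (h : ∀ x ∈ s, ‖f x‖ ≤ M) : ‖𝔼 x ∈ s, f x‖ ≤ M :=
  (RCLike.norm_expect_le (K := ℂ)).trans (expect_le hs h)

variable {Q : ℕ} [Fact Q.Prime] {n r : ℕ} {ι : Type} [Fintype ι] [DecidableEq ι]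

/-- the quadratic phase -/
def Qd (B : Bil Q n ι) (k : ι → ZMod Q) (z : V Q n) : ZMod Q := (2 : ZMod Q)⁻¹ * (k ⬝ᵥ B z z)

theorem phase (hQ : 2 < Q) (ξ : V Q n → Fin r → V Q n) {B : Bil Q n ι} (hB : ∀ x y, B x y = B y x)
    (γ : V Q n → Fin r → ZMod Q) (α β : V Q n → ι → ZMod Q) (k : Fin r ⊕ ι → ℤ) (h s : V Q n) :
    cs Q k ⬝ᵥ arg ξ B γ α β h s =
      (cs Q (k ∘ Sum.inl) ⬝ᵥ γ h + cs Q (k ∘ Sum.inr) ⬝ᵥ α h - Qd B (cs Q (k ∘ Sum.inr)) h) +
      (cs Q (k ∘ Sum.inr) ⬝ᵥ β s - Qd B (cs Q (k ∘ Sum.inr)) s) +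
      Qd B (cs Q (k ∘ Sum.inr)) (h + s) + zt ξ (k ∘ Sum.inl) h ⬝ᵥ s := by
  have h1 : cs Q k = Sum.elim (cs Q (k ∘ Sum.inl)) (cs Q (k ∘ Sum.inr)) := by
    funext i
    cases i <;> rfl
  have h2 : (fun i => ξ h i ⬝ᵥ s + γ h i) = (fun i => ξ h i ⬝ᵥ s) + γ h := rfl
  have h3 := inv_mul_cancel₀ (two_ne hQ)
  rw [h1, arg, sumElim_dotProduct_sumElim, h2, zt_dot]
  simp only [Qd, map_add, LinearMap.add_apply, dotProduct_add, hB s h]
  linear_combination (-(cs Q (k ∘ Sum.inr) ⬝ᵥ B h s)) * h3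

end Drp

open Drp Ke

theorem drp_of (hA : AVG) : DRP := by
  classical
  intro Q _ n r T Ts K0 ι _ _ M η δ S ξ B γ α β u Y g Φ W hQ hT hTs hB hu hY hS hg hδ hΦ hX
  obtain ⟨c, hc, hc'⟩ := hΦ
  have n1 : ∀ {f : V Q n → ℝ}, U01 f → ∀ x, ‖(f x : ℂ)‖ ≤ 1 := fun hf x => by
    rw [Complex.norm_real, Real.norm_of_nonneg (hf x).1]
    exact (hf x).2
  let c' : (Fin r ⊕ ι → ℤ) → V Q n → ℂ := fun k h =>
    if h ∈ bx Q n T ∧ cs Q (k ∘ Sum.inl) ∉ W h then u h * ch (cs Q (k ∘ Sum.inl) ⬝ᵥ γ h +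
      cs Q (k ∘ Sum.inr) ⬝ᵥ α h - Qd B (cs Q (k ∘ Sum.inr)) h) else 0
  let Y' : (Fin r ⊕ ι → ℤ) → V Q n → ℂ := fun k s =>
    Y s * ch (cs Q (k ∘ Sum.inr) ⬝ᵥ β s - Qd B (cs Q (k ∘ Sum.inr)) s)
  let G : (Fin r ⊕ ι → ℤ) → V Q n → ℂ := fun k z => g z / S * ch (Qd B (cs Q (k ∘ Sum.inr)) z)
  let R : V Q n → V Q n → ℂ := fun h s => ∑ k ∈ Sm (Fin r ⊕ ι) K0,
    c k * S * (c' k h * Y' k s * G k (h + s) * ch (zt ξ (k ∘ Sum.inl) h ⬝ᵥ s))
  have h1 : ‖𝔼 h ∈ bx Q n T, 𝔼 s ∈ bx Q n Ts, R h s‖ ≤ S * (M * δ) := by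
    simp only [R, expect_sum_comm, ← mul_expect]
    refine (norm_sum_le_of_le _ (n := fun k => ‖c k‖ * (S * δ)) fun k hk => ?_).trans ?_
    · rw [norm_mul, norm_mul, mul_assoc, Complex.norm_real, Real.norm_of_nonneg hS.le]
      gcongr
      refine hX _ (Fintype.mem_piFinset.2 fun i => Fintype.mem_piFinset.1 hk _) _ _ _
        (fun h => ?_) (fun h hh => if_neg fun h' => h'.2 hh) (fun h hh => if_neg fun h' => hh h'.1)
        (fun s => ?_) fun z => ?_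
      · simp only [c']
        split_ifs
        · rw [norm_mul, norm_ch, mul_one]
          exact n1 hu h
        · simp
      · simp only [Y']
        rw [norm_mul, norm_ch, mul_one]
        exact n1 hY s
      · simp only [G]
        rw [norm_mul, norm_ch, mul_one, norm_div, Complex.norm_real, Complex.norm_real,
          Real.norm_of_nonneg hS.le, div_le_one hS]
        exact hg z
    · rw [← sum_mul, mul_left_comm]
      gcongr
  have h2 : ∀ h ∈ bx Q n T, ∀ s, ‖((u h * Y s * (Φ (arg ξ B γ α β h s) -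
      avg (KK ι (W h)) Φ (arg ξ B γ α β h s)) * g (h + s) : ℝ) : ℂ) - R h s‖ ≤ S * (2 * η) := by
    intro h hh s
    have e1 := hc' (arg ξ B γ α β h s)
    have e2 := (hA Q _ (KK ι (W h)) Φ).2.2 K0 η c hc' (arg ξ B γ α β h s)
    have e3 : R h s = u h * Y s * g (h + s) * (∑ k ∈ Sm (Fin r ⊕ ι) K0,
        c k * ch (cs Q k ⬝ᵥ arg ξ B γ α β h s) - ∑ k ∈ Sm (Fin r ⊕ ι) K0,
        (if cs Q k ∈ KK ι (W h) then c k else 0) * ch (cs Q k ⬝ᵥ arg ξ B γ α β h s)) := by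
      rw [← sum_sub_distrib, mul_sum]
      refine sum_congr rfl fun k _ => ?_
      have hS' : (S : ℂ) ≠ 0 := Complex.ofReal_ne_zero.2 hS.ne'
      by_cases hk : cs Q k ∈ KK ι (W h)
      · have : c' k h = 0 := if_neg fun h' => h'.2 hk
        simp [this, hk]
      · have : c' k h = _ := if_pos ⟨hh, hk⟩
        rw [this, if_neg hk, phase hQ ξ hB, ch_add, ch_add, ch_add]
        simp only [Y', G]
        field_simp
        ring
    have e4 : ∀ a b p q x y z : ℂ, x * y * (a - b) * z - x * y * z * (p - q) =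
        x * y * z * ((a - p) - (b - q)) := fun _ _ _ _ _ _ _ => by ring
    push_cast
    rw [e3, e4, norm_mul, norm_mul, norm_mul]
    have e5 : ‖(g (h + s) : ℂ)‖ ≤ S := by rw [Complex.norm_real]; exact hg _
    have e6 := (norm_sub_le _ _).trans (add_le_add e1 e2)
    rw [← two_mul] at e6
    calc _ ≤ 1 * 1 * S * (2 * η) := by
          gcongr
          exacts [n1 hu h, n1 hY s]
      _ = _ := by ring
  have h3 := norm_exp (bx_nonempty hT) fun h hh => norm_exp (bx_nonempty hTs) fun s _ => h2 h hh s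
  simp only [expect_sub_distrib, ← Complex.ofReal_expect] at h3
  have h4 := (norm_add_le _ _).trans (add_le_add h3 h1)
  rw [sub_add_cancel, Complex.norm_real, Real.norm_eq_abs] at h4
  linarith

end

end Vale.Agent.P057Z.Dr
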