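import Vale.Agent.P057Z.Dr.Sk

/-! Block Dr: two Cauchy-Schwarz steps. -/

set_option linter.all false

open Finset
open scoped BigOperators ComplexConjugate

namespace Vale.Agent.P057Z.Dr

open Vale.Agent.P057Z.Ke

namespace EnX

theorem ne_le {α : Type*} {s : Finset α} (hs : s.Nonempty) {f : α → ℂ} {M : ℝ}
    (h : ∀ x ∈ s, ‖f x‖ ≤ M) : ‖𝔼 x ∈ s, f x‖ ≤ M :=
  (RCLike.norm_expect_le (K := ℂ)).trans (expect_le hs h)

theorem conj_exp {α : Type*} (s : Finset α) (f : α → ℂ) :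
    conj (𝔼 x ∈ s, f x) = 𝔼 x ∈ s, conj (f x) := by
  simp [expect_eq_sum_div_card, map_sum]

/-- Cauchy-Schwarz -/
theorem cs2 {α β : Type*} {s : Finset α} (hs : s.Nonempty) (t : Finset β) (u : α → ℂ)
    (f : α → β → ℂ) (hu : ∀ x, ‖u x‖ ≤ 1) :
    ‖𝔼 x ∈ s, u x * 𝔼 y ∈ t, f x y‖ ^ 2 ≤
      ‖𝔼 p ∈ t ×ˢ t, 𝔼 x ∈ s, f x p.1 * conj (f x p.2)‖ := by
  have h1 : ‖𝔼 x ∈ s, u x * 𝔼 y ∈ t, f x y‖ ≤ 𝔼 x ∈ s, 1 * ‖𝔼 y ∈ t, f x y‖ :=
    (RCLike.norm_expect_le (K := ℂ)).trans (expect_le_expect fun x _ => by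
      rw [norm_mul]
      exact mul_le_mul_of_nonneg_right (hu x) (norm_nonneg _))
  have h2 := expect_mul_sq_le_sq_mul_sq s (fun _ => (1 : ℝ)) fun x => ‖𝔼 y ∈ t, f x y‖
  rw [expect_const hs, one_pow, one_mul] at h2
  have h3 : 𝔼 p ∈ t ×ˢ t, 𝔼 x ∈ s, f x p.1 * conj (f x p.2) =
      ((𝔼 x ∈ s, ‖𝔼 y ∈ t, f x y‖ ^ 2 : ℝ) : ℂ) := by
    rw [expect_comm, Complex.ofReal_expect]
    refine expect_congr rfl fun x _ => ?_
    rw [expect_product, Complex.ofReal_pow, ← Complex.mul_conj', conj_exp, expect_mul_expect]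
  rw [h3, Complex.norm_real]
  exact ((pow_le_pow_left₀ (norm_nonneg _) h1 2).trans h2).trans (le_abs_self _)

variable {Q : ℕ} [Fact Q.Prime] {n : ℕ}

/-- character sums over a box -/
theorem geo {T : ℕ} (hT1 : 1 ≤ T) (hT : T ≤ Q) (η : V Q n) (i : Fin n) :
    2 * nm (η i) * T * ‖𝔼 s ∈ bx Q n T, ch (η ⬝ᵥ s)‖ ≤ 1 := by
  have hT0 : (0 : ℝ) < T := by exact_mod_cast hT1
  have h1 : 𝔼 s ∈ bx Q n T, ch (η ⬝ᵥ s) =
      ∏ j, ((∑ t ∈ range T, ch ((t : ZMod Q) * η j)) / T) := by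
    rw [expect_bx hT, expect_eq_sum_div_card, prod_div_distrib, prod_univ_sum,
      Fintype.card_piFinset]
    simp only [card_range, prod_const, Nat.cast_pow]
    refine congrArg (· / _) (sum_congr rfl fun t _ => ?_)
    rw [dotProduct, ch_sum]
    exact prod_congr rfl fun j _ => by rw [mul_comm]
  have h2 : ∀ j, ‖(∑ t ∈ range T, ch ((t : ZMod Q) * η j)) / T‖ ≤ 1 := fun j => by
    rw [norm_div, Complex.norm_natCast, div_le_one hT0]
    refine (norm_sum_le _ _).trans (le_of_eq ?_)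
    simp [norm_ch]
  have h3 : ‖𝔼 s ∈ bx Q n T, ch (η ⬝ᵥ s)‖ ≤ ‖∑ t ∈ range T, ch ((t : ZMod Q) * η i)‖ / T := by
    rw [h1, ← mul_prod_erase univ _ (mem_univ i), norm_mul, norm_prod, norm_div,
      Complex.norm_natCast]
    exact mul_le_of_le_one_right (by positivity)
      (prod_le_one (fun _ _ => norm_nonneg _) fun j _ => h2 j)
  have h4 := geom_le T (η i)
  have h5 := nm_nonneg (η i)
  calc _ ≤ 2 * nm (η i) * T * (‖∑ t ∈ range T, ch ((t : ZMod Q) * η i)‖ / T) := by gcongr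
    _ = 2 * nm (η i) * ‖∑ t ∈ range T, ch ((t : ZMod Q) * η i)‖ := by
        rw [mul_assoc, mul_div_cancel₀ _ hT0.ne']
    _ ≤ 1 := h4

theorem mul_le1 {a b : ℂ} (ha : ‖a‖ ≤ 1) (hb : ‖b‖ ≤ 1) : ‖a * b‖ ≤ 1 := by
  rw [norm_mul]
  exact mul_le_one₀ ha (norm_nonneg _) hb

theorem conj_le1 {a : ℂ} (ha : ‖a‖ ≤ 1) : ‖conj a‖ ≤ 1 := by rwa [Complex.norm_conj]

theorem ch_le1 (u : ZMod Q) : ‖ch u‖ ≤ 1 := (norm_ch u).le

theorem num {δ a b c e : ℝ} (h0 : 0 < δ) (h1 : δ ≤ 1) (ha : δ - δ ^ 4 / 25 ≤ a) (hb : a ^ 2 ≤ b)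
    (hc : b - δ ^ 4 / 50 ≤ c) (he : c ^ 2 ≤ e + δ ^ 4 / 200) : δ ^ 4 / 2 ≤ e := by
  have h2 : δ ^ 4 ≤ δ := pow_le_of_le_one h0.le h1 (by norm_num)
  have h3 : δ ^ 4 ≤ δ ^ 2 := pow_le_pow_of_le_one h0.le h1 (by norm_num)
  have h4 : (24 / 25 * δ) ^ 2 ≤ a ^ 2 := pow_le_pow_left₀ (by positivity) (by linarith) 2
  have h5 : (9 / 10 * δ ^ 2) ^ 2 ≤ c ^ 2 :=
    pow_le_pow_left₀ (by positivity) (by nlinarith [sq_nonneg δ]) 2
  have h6 : 0 ≤ δ ^ 4 := by positivity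
  nlinarith

end EnX

open EnX

theorem en : EN := by
  classical
  intro Q _ n T Ts Tb Ta δ τ ξ U c Y G hTa hTb hT hTs hTQ hTsQ hδ hδ1 hτ e1 e2 e3 e4 hc hU hY hG hI
  have hT0 : (0 : ℝ) < T := by exact_mod_cast hT
  have hTs0 : (0 : ℝ) < Ts := by exact_mod_cast hTs
  have nB := bx_nonempty (Q := Q) (n := n) hT
  have nS := bx_nonempty (Q := Q) (n := n) hTs
  have nA := bx_nonempty (Q := Q) (n := n) hTa
  have nb := bx_nonempty (Q := Q) (n := n) hTb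
  let f1 : (V Q n × V Q n) × V Q n → V Q n → ℂ := fun x a =>
    c (x.1.1 + x.1.2 + a) * G (x.1.1 + x.1.2 + a + x.2) * ch (ξ (x.1.1 + x.1.2 + a) ⬝ᵥ x.2)
  have b1 : ∀ x a, ‖f1 x a‖ ≤ 1 := fun x a => mul_le1 (mul_le1 (hc _) (hG _)) (ch_le1 _)
  let D : (V Q n × V Q n) × V Q n → V Q n → V Q n := fun y b =>
    ξ (y.2 + b + y.1.1) - ξ (y.2 + b + y.1.2)
  let w : (V Q n × V Q n) × V Q n → V Q n → ℂ := fun y b =>
    c (y.2 + b + y.1.1) * conj (c (y.2 + b + y.1.2)) * ch (-(D y b ⬝ᵥ b))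
  have bw : ∀ y b, ‖w y b‖ ≤ 1 := fun y b =>
    mul_le1 (mul_le1 (hc _) (conj_le1 (hc _))) (ch_le1 _)
  let f2 : ((V Q n × V Q n) × V Q n) × V Q n → V Q n → ℂ := fun x b =>
    w x.1 b * ch (D x.1 b ⬝ᵥ x.2)
  let u2 : ((V Q n × V Q n) × V Q n) × V Q n → ℂ := fun x =>
    G (x.1.2 + x.1.1.1 + x.2) * conj (G (x.1.2 + x.1.1.2 + x.2))
  have s0 := fol_avg (𝕜 := ℂ) (nb.product nA) hT hTQ (t := Tb + Ta) (v := fun j => j.1 + j.2)
    (fun j hj => near_add (near_of_mem_bx (mem_product.1 hj).1) (near_of_mem_bx (mem_product.1 hj).2))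
    (fun h => 𝔼 s ∈ bx Q n Ts, c h * Y s * G (h + s) * ch (ξ h ⬝ᵥ s)) (M := 1)
    fun h => ne_le nS fun s _ => mul_le1 (mul_le1 (mul_le1 (hc _) (hY _)) (hG _)) (ch_le1 _)
  have q0 : (𝔼 h ∈ bx Q n T, 𝔼 j ∈ bx Q n Tb ×ˢ bx Q n Ta, 𝔼 s ∈ bx Q n Ts,
      c (h + (j.1 + j.2)) * Y s * G (h + (j.1 + j.2) + s) * ch (ξ (h + (j.1 + j.2)) ⬝ᵥ s)) =
      𝔼 x ∈ (bx Q n T ×ˢ bx Q n Tb) ×ˢ bx Q n Ts, Y x.2 * 𝔼 a ∈ bx Q n Ta, f1 x a := by
    rw [expect_product, expect_product]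
    refine expect_congr rfl fun h _ => ?_
    rw [expect_product]
    refine expect_congr rfl fun b _ => ?_
    rw [expect_comm]
    refine expect_congr rfl fun s _ => ?_
    rw [mul_expect]
    refine expect_congr rfl fun a _ => ?_
    simp only [f1, add_assoc]
    ring
  rw [q0] at s0
  have s1 := cs2 ((nB.product nb).product nS) (bx Q n Ta) (fun x => Y x.2) f1 fun x => hY _
  have s2 : ‖(𝔼 x ∈ ((bx Q n Ta ×ˢ bx Q n Ta) ×ˢ bx Q n T) ×ˢ bx Q n Ts,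
      u2 x * 𝔼 b ∈ bx Q n Tb, f2 x b) - 𝔼 p ∈ bx Q n Ta ×ˢ bx Q n Ta,
        𝔼 x ∈ (bx Q n T ×ˢ bx Q n Tb) ×ˢ bx Q n Ts, f1 x p.1 * conj (f1 x p.2)‖ ≤
      2 * n * Tb / Ts * 1 := by
    rw [expect_product, expect_product, ← expect_sub_distrib]
    refine ne_le (nA.product nA) fun p _ => ?_
    rw [expect_product, expect_product, ← expect_sub_distrib]
    refine ne_le nB fun h _ => ?_
    simp only [mul_expect]
    rw [expect_comm, ← expect_sub_distrib]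
    refine ne_le nb fun b hb => ?_
    refine le_of_eq_of_le ?_ (fol (𝕜 := ℂ) hTs hTsQ (near_neg (near_of_mem_bx hb))
      (fun s => f1 ((h, b), s) p.1 * conj (f1 ((h, b), s) p.2)) (M := 1)
      fun s => mul_le1 (b1 _ _) (conj_le1 (b1 _ _)))
    refine congrArg (fun z => ‖z - _‖) (expect_congr rfl fun s _ => ?_)
    have a1 : ∀ a, h + b + a + (s + -b) = h + a + s := fun a => by abel
    have a2 : ch (-(D (p, h) b ⬝ᵥ b)) * ch (D (p, h) b ⬝ᵥ s) =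
        ch (ξ (h + b + p.1) ⬝ᵥ (s + -b)) * conj (ch (ξ (h + b + p.2) ⬝ᵥ (s + -b))) := by
      rw [← ch_neg, ← ch_add, ← ch_add]
      simp only [D, sub_dotProduct, dotProduct_add, dotProduct_neg]
      refine congrArg ch ?_
      ring
    simp only [f1, f2, u2, w, a1, map_mul]
    linear_combination (G (h + p.1 + s) * conj (G (h + p.2 + s)) * c (h + b + p.1) *
      conj (c (h + b + p.2))) * a2
  have s3 := cs2 (((nA.product nA).product nB).product nS) (bx Q n Tb) u2 f2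
    fun x => mul_le1 (hG _) (conj_le1 (hG _))
  have s4 : ‖𝔼 q ∈ bx Q n Tb ×ˢ bx Q n Tb,
      𝔼 x ∈ ((bx Q n Ta ×ˢ bx Q n Ta) ×ˢ bx Q n T) ×ˢ bx Q n Ts, f2 x q.1 * conj (f2 x q.2)‖ ≤
      ener ξ U T Tb Ta τ + δ ^ 4 / 200 := by
    let ind : V Q n → V Q n × V Q n → V Q n × V Q n → ℝ := fun h q p =>
      if h + q.1 + p.1 ∈ U ∧ h + q.1 + p.2 ∈ U ∧ h + q.2 + p.1 ∈ U ∧ h + q.2 + p.2 ∈ U ∧
        ∀ i, nm ((ξ (h + q.1 + p.1) - ξ (h + q.1 + p.2) - ξ (h + q.2 + p.1) +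
          ξ (h + q.2 + p.2)) i) ≤ τ then 1 else 0
    have k1 : ener ξ U T Tb Ta τ = 𝔼 q ∈ bx Q n Tb ×ˢ bx Q n Tb,
        𝔼 y ∈ (bx Q n Ta ×ˢ bx Q n Ta) ×ˢ bx Q n T, ind y.2 q y.1 := by
      have k2 : ∀ q, 𝔼 y ∈ (bx Q n Ta ×ˢ bx Q n Ta) ×ˢ bx Q n T, ind y.2 q y.1 =
          𝔼 h ∈ bx Q n T, 𝔼 p ∈ bx Q n Ta ×ˢ bx Q n Ta, ind h q p := fun q => by
        rw [expect_product, expect_comm]
      simp only [k2]
      rw [expect_comm]
      simp only [expect_product]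
      unfold ener
      refine expect_congr rfl fun h _ => expect_congr rfl fun b _ => expect_congr rfl fun b' _ =>
        expect_congr rfl fun a _ => expect_congr rfl fun a' _ => ?_
      exact if_congr Iff.rfl rfl rfl
    rw [k1, ← expect_const (nb.product nb) (δ ^ 4 / 200), ← expect_add_distrib]
    refine (RCLike.norm_expect_le (K := ℂ)).trans (expect_le_expect fun q _ => ?_)
    rw [← expect_const ((nA.product nA).product nB) (δ ^ 4 / 200), ← expect_add_distrib,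
      expect_product]
    refine (RCLike.norm_expect_le (K := ℂ)).trans (expect_le_expect fun y _ => ?_)
    have k3 : 𝔼 s ∈ bx Q n Ts, f2 (y, s) q.1 * conj (f2 (y, s) q.2) =
        w y q.1 * conj (w y q.2) * 𝔼 s ∈ bx Q n Ts, ch ((D y q.1 - D y q.2) ⬝ᵥ s) := by
      rw [mul_expect]
      refine expect_congr rfl fun s _ => ?_
      rw [sub_dotProduct, sub_eq_add_neg, ch_add, ch_neg]
      simp only [f2, map_mul]
      ring
    have k4 : ‖w y q.1 * conj (w y q.2)‖ ≤ 1 := mul_le1 (bw _ _) (conj_le1 (bw _ _))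
    have k5 : (0 : ℝ) ≤ δ ^ 4 / 200 := by positivity
    rw [k3]
    simp only [ind]
    split_ifs with hg
    · exact (mul_le1 k4 (ne_le nS fun s _ => ch_le1 _)).trans (by linarith)
    · rw [zero_add]
      by_cases h0 : w y q.1 * conj (w y q.2) = 0
      · rw [h0, zero_mul, norm_zero]
        exact k5
      have m : ∀ z, c z ≠ 0 → z ∈ U := fun z hz => by
        by_contra hn
        exact hz (hU z hn)
      have n1 := left_ne_zero_of_mul (left_ne_zero_of_mul h0)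
      have n2 := left_ne_zero_of_mul ((map_ne_zero _).1 (right_ne_zero_of_mul h0))
      have hx : ∃ i, τ < nm ((D y q.1 - D y q.2) i) := by
        by_contra hn
        refine hg ⟨m _ (left_ne_zero_of_mul n1), m _ ((map_ne_zero _).1 (right_ne_zero_of_mul n1)),
          m _ (left_ne_zero_of_mul n2), m _ ((map_ne_zero _).1 (right_ne_zero_of_mul n2)),
          fun i => not_lt.1 fun hi => hn ⟨i, ?_⟩⟩
        have a3 : D y q.1 - D y q.2 = ξ (y.2 + q.1 + y.1.1) - ξ (y.2 + q.1 + y.1.2) -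
            ξ (y.2 + q.2 + y.1.1) + ξ (y.2 + q.2 + y.1.2) := by
          simp only [D]
          abel
        rwa [a3]
      obtain ⟨i, hi⟩ := hx
      have k6 := geo hTs hTsQ (D y q.1 - D y q.2) i
      rw [norm_mul]
      refine (mul_le_of_le_one_left (norm_nonneg _) k4).trans ?_
      set z := ‖𝔼 s ∈ bx Q n Ts, ch ((D y q.1 - D y q.2) ⬝ᵥ s)‖
      have z0 : 0 ≤ z := norm_nonneg _
      have k7 : 2 * τ * Ts * z ≤ 1 := le_trans (by gcongr) k6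
      have k8 : 0 < δ ^ 4 := by positivity
      have k9 := mul_le_mul_of_nonneg_right e4 z0
      nlinarith
  have t0 : 2 * (n : ℝ) * ((Tb + Ta : ℕ) : ℝ) / T * 1 ≤ δ ^ 4 / 25 := by
    rw [mul_one, div_le_iff₀ hT0]
    push_cast
    linarith
  have t2 : 2 * (n : ℝ) * Tb / Ts * 1 ≤ δ ^ 4 / 50 := by
    rw [mul_one, div_le_iff₀ hTs0]
    linarith
  refine num hδ hδ1 ?_ s1 ?_ (s3.trans s4)
  · have := norm_sub_norm_le _ _ |>.trans ((norm_sub_rev _ _).le.trans (s0.trans t0))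
    linarith
  · have := norm_sub_norm_le _ _ |>.trans ((norm_sub_rev _ _).le.trans (s2.trans t2))
    linarith

end Vale.Agent.P057Z.Dr
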