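import Vale.Agent.P057Z.Dr.Sk

/-! Block Dr: boxes and tiles, smoothing of the product of two kernels. -/

set_option linter.all false

open Finset
open scoped BigOperators

namespace Vale.Agent.P057Z.Dr

noncomputable section

namespace Til

theorem sub_avg {α : Type} [DecidableEq α] {A B : Finset α} (h : A ⊆ B) (hA : A.Nonempty)
    {g : α → ℝ} {S : ℝ} (hg : ∀ x, |g x| ≤ S) :
    |(𝔼 x ∈ B, g x) - 𝔼 x ∈ A, g x| ≤ 2 * (1 - (A.card : ℝ) / B.card) * S := by
  have bd : ∀ s : Finset α, |∑ y ∈ s, g y| ≤ s.card * S := fun s =>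
    (abs_sum_le_sum_abs _ _).trans
      (by simpa using sum_le_card_nsmul s (fun y => |g y|) S fun y _ => hg y)
  have a0 : (0 : ℝ) < A.card := by exact_mod_cast hA.card_pos
  have ab : (A.card : ℝ) ≤ B.card := by exact_mod_cast card_le_card h
  have b0 : (0 : ℝ) < B.card := a0.trans_le ab
  have k1 := bd A
  have k2 := bd (B \ A)
  rw [card_sdiff_of_subset h, Nat.cast_sub (card_le_card h)] at k2
  rw [expect_eq_sum_div_card, expect_eq_sum_div_card, ← sum_sdiff h]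
  generalize ∑ y ∈ A, g y = s1, ∑ y ∈ B \ A, g y = s2, (A.card : ℝ) = a, (B.card : ℝ) = b at *
  have e : (s2 + s1) / b - s1 / a = s2 / b - s1 * ((b - a) / (a * b)) := by
    field_simp
    ring
  have c0 : 0 ≤ (b - a) / (a * b) := div_nonneg (by linarith) (by positivity)
  rw [e]
  refine (abs_sub _ _).trans ?_
  rw [abs_div, abs_mul, abs_of_pos b0, abs_of_nonneg c0]
  refine (add_le_add (div_le_div_of_nonneg_right k2 b0.le)
    (mul_le_mul_of_nonneg_right k1 c0)).trans_eq ?_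
  field_simp
  ring

variable {Q : ℕ} [Fact Q.Prime] {n : ℕ}

theorem lt_mul {I Tt t j : ℕ} (ht : t < Tt) (hj : j < I) : t + Tt * j < I * Tt := by
  nlinarith [Nat.mul_le_mul_right Tt (Nat.succ_le_of_lt hj)]

theorem cast_add (Tt : ℕ) (t j : Fin n → ℕ) :
    (fun i => (t i : ZMod Q)) + ctr Q Tt j = fun i => ((t i + Tt * j i : ℕ) : ZMod Q) :=
  funext fun i => (Nat.cast_add _ _).symm

theorem uniq {I Tt : ℕ} {j j' : Fin n → ℕ} {x x' : V Q n} (hQ : I * Tt ≤ Q) (hj : ∀ i, j i < I)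
    (hj' : ∀ i, j' i < I) (hx : x ∈ bx Q n Tt) (hx' : x' ∈ bx Q n Tt)
    (e : x + ctr Q Tt j = x' + ctr Q Tt j') : j = j' := by
  obtain ⟨t, ht, rfl⟩ := Ke.mem_bx'.1 hx
  obtain ⟨t', ht', rfl⟩ := Ke.mem_bx'.1 hx'
  rw [cast_add, cast_add] at e
  funext i
  have k := Ke.cast_injOn hQ (mem_coe.2 (mem_range.2 (lt_mul (ht i) (hj i))))
    (mem_coe.2 (mem_range.2 (lt_mul (ht' i) (hj' i)))) (congrFun e i)
  have k1 := congrArg (· / Tt) k
  have T0 : 0 < Tt := (Nat.zero_le _).trans_lt (ht i)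
  simpa only [Nat.add_mul_div_left _ _ T0, Nat.div_eq_of_lt (ht i), Nat.div_eq_of_lt (ht' i),
    zero_add] using k1

theorem ll {r : ℕ} {ι : Type} [Fintype ι] [DecidableEq ι] {ρn ρ5 : ℝ} (h5 : 0 < ρ5)
    (hn : ρ5 ≤ ρn) : LL (1 / ρ5) fun U : Fin r ⊕ ι → ZMod Q =>
      lap ρn (fun i => U (Sum.inl i)) * lap ρ5 fun i => U (Sum.inr i) := by
  have n0 := h5.trans_le hn
  refine ⟨fun u => mul_pos (Real.exp_pos _) (Real.exp_pos _), fun u => ?_, fun u v => ?_⟩
  · simp only [lap, ← Real.exp_add, Real.exp_le_one_iff, neg_div]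
    have := div_nonneg (Ke.l1_nonneg fun i => u (Sum.inl i)) n0.le
    have := div_nonneg (Ke.l1_nonneg fun i => u (Sum.inr i)) h5.le
    linarith
  · simp only [lap, ← Real.exp_add, Real.exp_le_exp, neg_div]
    have e : l1 v = (l1 fun i => v (Sum.inl i)) + l1 fun i => v (Sum.inr i) :=
      Fintype.sum_sum_type _
    have k1 := Ke.l1_sub_le (fun i => (u + v) (Sum.inl i)) fun i => v (Sum.inl i)
    have k2 := Ke.l1_sub_le (fun i => (u + v) (Sum.inr i)) fun i => v (Sum.inr i)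
    rw [show ((fun i => (u + v) (Sum.inl i)) - fun i => v (Sum.inl i)) = fun i => u (Sum.inl i)
      from funext fun i => add_sub_cancel_right _ _] at k1
    rw [show ((fun i => (u + v) (Sum.inr i)) - fun i => v (Sum.inr i)) = fun i => u (Sum.inr i)
      from funext fun i => add_sub_cancel_right _ _] at k2
    have k3 := div_le_div_of_nonneg_left (Ke.l1_nonneg fun i => v (Sum.inl i)) h5 hn
    have k4 := div_le_div_of_nonneg_right k1 n0.le
    have k5 := div_le_div_of_nonneg_right k2 h5.le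
    rw [add_div] at k4 k5
    rw [e, one_div_mul_eq_div, add_div]
    linarith

end Til

theorem til : TIL := by
  intro Q _ n
  refine ⟨fun T T1 S g h1 h2 hT hg => ?_, fun I Tt g hI h1 hQ => ?_,
    fun I Tt j j' h hQ hj hj' a a' => ?_⟩
  · refine (Til.sub_avg (Ke.bx_mono h2) (Ke.bx_nonempty h1) hg).trans
      (mul_le_mul_of_nonneg_right ?_ ((abs_nonneg _).trans (hg 0)))
    have T0 : (0 : ℝ) < T := by exact_mod_cast h1.trans h2
    have k := one_add_mul_le_pow (a := (T1 : ℝ) / T - 1)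
      (by linarith [div_nonneg (Nat.cast_nonneg (α := ℝ) T1) T0.le]) n
    rw [Ke.card_bx hT, Ke.card_bx (h2.trans hT), Nat.cast_pow, Nat.cast_pow, ← div_pow,
      mul_div_assoc, sub_div, div_self T0.ne']
    rw [add_sub_cancel] at k
    linarith
  · have e : (𝔼 p ∈ Fintype.piFinset (fun _ : Fin n => range I) ×ˢ bx Q n Tt,
        g (p.2 + ctr Q Tt p.1)) = 𝔼 x ∈ bx Q n (I * Tt), g x := by
      refine expect_nbij (fun p => p.2 + ctr Q Tt p.1) (fun p hp => ?_) (fun _ _ => rfl)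
        (fun p hp p' hp' e => ?_) fun x hx => ?_
      · obtain ⟨a, b⟩ := mem_product.1 hp
        obtain ⟨t, ht, e⟩ := Ke.mem_bx'.1 b
        rw [e, Til.cast_add]
        exact Ke.cast_mem_bx fun i => Til.lt_mul (ht i) (mem_range.1 (Fintype.mem_piFinset.1 a i))
      · obtain ⟨a, b⟩ := mem_product.1 (mem_coe.1 hp)
        obtain ⟨a', b'⟩ := mem_product.1 (mem_coe.1 hp')
        have k := Til.uniq hQ (fun i => mem_range.1 (Fintype.mem_piFinset.1 a i))
          (fun i => mem_range.1 (Fintype.mem_piFinset.1 a' i)) b b' e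
        beta_reduce at e
        rw [k] at e
        exact Prod.ext k (add_right_cancel e)
      · obtain ⟨t, ht, rfl⟩ := Ke.mem_bx'.1 (mem_coe.1 hx)
        refine ⟨(fun i => t i / Tt, fun i => ((t i % Tt : ℕ) : ZMod Q)), mem_coe.2 (mem_product.2
          ⟨Fintype.mem_piFinset.2 fun i => mem_range.2 ((Nat.div_lt_iff_lt_mul h1).2 (ht i)),
            Ke.cast_mem_bx fun i => Nat.mod_lt _ h1⟩), ?_⟩
        beta_reduce
        rw [Til.cast_add]
        simp only [Nat.mod_add_div]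
    rw [expect_product] at e
    obtain ⟨j, hj, k⟩ := exists_le_of_le_expect
      (Fintype.piFinset_nonempty.2 fun _ => nonempty_range_iff.2 (by omega)) e.ge
    exact ⟨j, fun i => mem_range.1 (Fintype.mem_piFinset.1 hj i), k⟩
  · rw [tile_eq] at a a'
    obtain ⟨x, hx, e⟩ := mem_image.1 a
    obtain ⟨x', hx', e'⟩ := mem_image.1 a'
    exact Til.uniq hQ hj hj' hx hx' (e.trans e'.symm)

theorem smo_of (h : SM) : SMO := by
  intro Q _ n r T W ι _ _ Y ε θ ρn ρ5 κ f ξ B e0 e1 hY hr hι hQ f0 θ0 h5 hn κ0 hS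
  obtain ⟨u, Y', γ, α, β, hu, hY', hκ⟩ := hS
  have p5 : 0 < ρ5 := (Real.exp_pos _).trans_le h5
  have Y1 : 800 ≤ Y := by
    rw [div_le_iff₀ e0] at hY
    nlinarith
  have q := Real.quadratic_le_exp_of_nonneg (x := 2 * Y) (by linarith)
  obtain ⟨Φ, K0, hK, hL, hΦ, hF⟩ := h Q (Fin r ⊕ ι) (2 * Y) (10 * Y) (1 / ρ5) (ε / 8) _
    (by linarith) (by rw [Fintype.card_sum, Fintype.card_fin]; push_cast; linarith)
    (by positivity) (by
      rw [one_div_le p5 (Real.exp_pos _), one_div, ← Real.exp_neg]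
      exact (Real.exp_le_exp.2 (by linarith)).trans h5) (by
      rw [Real.exp_neg, inv_le_comm₀ (Real.exp_pos _) (by positivity), inv_div]
      nlinarith) (by linarith) (by nlinarith)
    (by rwa [show 5 * (2 * Y) = 10 * Y by ring]) (Til.ll (r := r) (ι := ι) p5 hn)
  rw [show 5 * (2 * Y) = 10 * Y by ring] at hK
  rw [show 6 * (2 * Y) ^ 2 = 24 * Y ^ 2 by ring] at hF
  refine ⟨u, Y', γ, α, β, Φ, K0, hu, hY', hK, hL, hF, ?_⟩
  refine le_trans (mul_le_mul_of_nonneg_right (by linarith : 9 / 10 ≤ 1 - ε / 8) κ0)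
    ((mul_le_mul_of_nonneg_left hκ (by linarith)).trans ?_)
  rw [mul_expect]
  refine expect_le_expect fun a _ => ?_
  rw [mul_expect]
  refine expect_le_expect fun s _ => ?_
  obtain ⟨k1, k2⟩ := hΦ (arg ξ B γ α β a s)
  change _ * (lap ρn (fun i => ξ a i ⬝ᵥ s + γ a i) * lap ρ5 (B a s + α a + β s)) ≤ _ at k1
  change _ ≤ _ * (lap ρn (fun i => ξ a i ⬝ᵥ s + γ a i) * lap ρ5 (B a s + α a + β s)) at k2
  have k0 : 0 ≤ lap ρn (fun i => ξ a i ⬝ᵥ s + γ a i) * lap ρ5 (B a s + α a + β s) :=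
    (mul_pos (Real.exp_pos _) (Real.exp_pos _)).le
  rw [mul_assoc (u a * Y' s)]
  generalize lap ρn (fun i => ξ a i ⬝ᵥ s + γ a i) * lap ρ5 (B a s + α a + β s) = P at *
  have k3 := mul_le_mul_of_nonneg_right k1 (f0 (a + s))
  have k4 := mul_le_mul_of_nonneg_right k2 (mul_nonneg (by linarith : 0 ≤ 1 - ε) θ0)
  have k5 : (1 + ε / 8) * (1 - ε) * (P * θ) ≤ (1 - ε / 8) * (P * θ) :=
    mul_le_mul_of_nonneg_right (by nlinarith) (mul_nonneg k0 θ0)
  have k6 : (1 - ε / 8) * P * (f (a + s) - θ) ≤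
      Φ (arg ξ B γ α β a s) * (f (a + s) - (1 - ε) * θ) := by nlinarith
  have k7 := mul_le_mul_of_nonneg_left k6 (mul_nonneg (hu a).1 (hY' s).1)
  nlinarith

end

end Vale.Agent.P057Z.Dr
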