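import Vale.Agent.P057Z.Dr.Top
import Vale.Agent.P057Z.Dr.En
import Vale.Agent.P057Z.Dr.Til
import Vale.Agent.P057Z.Dr.Drp
import Vale.Agent.P057Z.Dr.Cls
import Vale.Agent.P057Z.Ke.All

/-! Block Dr assembled. -/

namespace Vale.Agent.P057Z.Dr

theorem drop (hFR : FR) : DROP :=
  drop_of hFR en Ke.avg_ Ke.kill_ Ke.cr til (drp_of Ke.avg_) (cls_of til) (smo_of Ke.sm)

end Vale.Agent.P057Z.Dr
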