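import Vale.Agent.P057Z.Dr.Sk

/-! Block Dr: localisation to a progression on which the frequencies are affine. -/

set_option linter.all false

open Finset
open scoped BigOperators

namespace Vale.Agent.P057Z.Dr

noncomputable section

namespace Loc

open Vale.Agent.P057Z.Ke

variable {Q : ℕ} [Fact Q.Prime] {n n' r j : ℕ} {ι : Type} [Fintype ι] [DecidableEq ι]

/-- the bilinear form on the progression -/
def Cb (B : Bil Q n ι) (Pt : V Q n' →ₗ[ZMod Q] V Q n) (Ξ : Fin j → V Q n' →ₗ[ZMod Q] V Q n)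
    (w : Fin j → Fin r → ZMod Q) : Bil Q n' (Fin r ⊕ ι) :=
  LinearMap.mk₂ (ZMod Q)
    (fun a b => Sum.elim (∑ i, (Ξ i a ⬝ᵥ Pt b) • w i) (B (Pt a) (Pt b)))
    (fun a a' b => by
      funext x
      cases x <;> simp [add_smul, sum_add_distrib, add_mul])
    (fun c a b => by
      funext x
      cases x <;> simp [mul_sum, mul_assoc])
    (fun a b b' => by
      funext x
      cases x <;> simp [add_smul, sum_add_distrib, add_mul])
    (fun c a b => by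
      funext x
      cases x <;> simp [mul_sum, mul_assoc])

theorem Cb_apply (B : Bil Q n ι) (Pt : V Q n' →ₗ[ZMod Q] V Q n)
    (Ξ : Fin j → V Q n' →ₗ[ZMod Q] V Q n) (w : Fin j → Fin r → ZMod Q) (a b : V Q n') :
    Cb B Pt Ξ w a b = Sum.elim (∑ i, (Ξ i a ⬝ᵥ Pt b) • w i) (B (Pt a) (Pt b)) := rfl

theorem dual {b w : Fin j → Fin r → ℤ} {D0 : ℤ}
    (h : ∀ i i', b i ⬝ᵥ w i' = if i = i' then D0 else 0) (i : Fin j) (c : Fin j → ZMod Q) :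
    cs Q (b i) ⬝ᵥ (∑ i', c i' • cs Q (w i')) = c i * D0 := by
  have h1 : ∀ i', cs Q (b i) ⬝ᵥ cs Q (w i') = if i = i' then (D0 : ZMod Q) else 0 := by
    intro i'
    have h2 : cs Q (b i) ⬝ᵥ cs Q (w i') = ((b i ⬝ᵥ w i' : ℤ) : ZMod Q) := by
      simp [cs, dotProduct]
    rw [h2, h]
    split_ifs <;> simp
  rw [dotProduct_sum]
  simp only [dotProduct_smul, h1, smul_eq_mul, mul_ite, mul_zero, sum_ite_eq, mem_univ, if_true]

theorem nm_dot {x y : V Q n} {t : ℕ} {τ : ℝ} (hx : ∀ m, nm (x m) ≤ τ) (hy : Near y t) :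
    nm (x ⬝ᵥ y) ≤ n * (t * τ) := by
  have := nm_dot_le x (LinearMap.id : V Q n →ₗ[ZMod Q] V Q n) (τ := τ) (fun m => by
    simpa using hx m) hy
  simpa using this

theorem ll_close {κ : Type} [Fintype κ] [DecidableEq κ] {lam ω : ℝ} {Ω : (κ → ZMod Q) → ℝ}
    (h : LL lam Ω) {e : κ → ZMod Q} (he : lam * l1 e ≤ ω) (h0 : 0 ≤ ω) (h1 : ω ≤ 1)
    (x : κ → ZMod Q) : |Ω (x + e) - Ω x| ≤ 2 * ω := by
  have hexp : Real.exp ω ≤ 1 + 2 * ω := by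
    have := Real.abs_exp_sub_one_le (x := ω) (by rwa [abs_of_nonneg h0])
    rw [abs_of_nonneg h0] at this
    linarith [le_abs_self (Real.exp ω - 1)]
  have a1 := h.lip x e
  have a2 := h.lip (x + e) (-e)
  rw [add_neg_cancel_right, l1_neg] at a2
  have a3 : Real.exp (lam * l1 e) ≤ 1 + 2 * ω := (Real.exp_le_exp.2 he).trans hexp
  have p1 := h.pos x
  have p2 := h.pos (x + e)
  have q1 := h.le_one x
  have q2 := h.le_one (x + e)
  rw [abs_le]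
  constructor <;> nlinarith

/-- the algebra: on the progression the argument is bilinear up to a small error -/
theorem alg {ξ : V Q n → Fin r → V Q n} {B : Bil Q n ι} {γ : V Q n → Fin r → ZMod Q}
    {α β : V Q n → ι → ZMod Q} {Ω : (Fin r ⊕ ι → ZMod Q) → ℝ} {b w : Fin j → Fin r → ℤ} {D0 : ℤ}
    {P : V Q n' →ₗ[ZMod Q] V Q n} {Ξ : Fin j → V Q n' →ₗ[ZMod Q] V Q n}
    (hinv : ∀ x v, (∀ i, v (Sum.inr i) = 0) →
      (∀ i, cs Q (b i) ⬝ᵥ (fun l => v (Sum.inl l)) = 0) → Ω (x + v) = Ω x)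
    (hD : (D0 : ZMod Q) ≠ 0) (hbw : ∀ i i', b i ⬝ᵥ w i' = if i = i' then D0 else 0)
    (h0 s0 : V Q n) (a1 a c : V Q n') :
    Ω (arg ξ B γ α β (h0 + ((D0 : ZMod Q) • P) a) (s0 + ((D0 : ZMod Q) • P) c)) =
      Ω (Cb B ((D0 : ZMod Q) • P) Ξ (fun i => cs Q (w i)) a c +
        Sum.elim (∑ i, ((D0 : ZMod Q)⁻¹ * (zt ξ (b i) (h0 + ((D0 : ZMod Q) • P) a) ⬝ᵥ s0 +
            cs Q (b i) ⬝ᵥ γ (h0 + ((D0 : ZMod Q) • P) a))) • cs Q (w i))
          (B (h0 + ((D0 : ZMod Q) • P) a) s0 + α (h0 + ((D0 : ZMod Q) • P) a)) +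
        Sum.elim (∑ i, ((zt ξ (b i) (h0 + ((D0 : ZMod Q) • P) a1) - (D0 : ZMod Q) • Ξ i a1) ⬝ᵥ
            P c) • cs Q (w i))
          (B h0 (((D0 : ZMod Q) • P) c) + β (s0 + ((D0 : ZMod Q) • P) c)) +
        Sum.elim (∑ i, ((zt ξ (b i) (h0 + ((D0 : ZMod Q) • P) a) -
            zt ξ (b i) (h0 + ((D0 : ZMod Q) • P) a1) - Ξ i ((D0 : ZMod Q) • (a - a1))) ⬝ᵥ P c) •
              cs Q (w i)) 0) := by
  set h := h0 + ((D0 : ZMod Q) • P) a with hh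
  set h1 := h0 + ((D0 : ZMod Q) • P) a1 with hh1
  rw [Cb_apply]
  set X := Sum.elim (∑ i, (Ξ i a ⬝ᵥ ((D0 : ZMod Q) • P) c) • cs Q (w i))
      (B (((D0 : ZMod Q) • P) a) (((D0 : ZMod Q) • P) c)) +
    Sum.elim (∑ i, ((D0 : ZMod Q)⁻¹ * (zt ξ (b i) h ⬝ᵥ s0 + cs Q (b i) ⬝ᵥ γ h)) • cs Q (w i))
      (B h s0 + α h) +
    Sum.elim (∑ i, ((zt ξ (b i) h1 - (D0 : ZMod Q) • Ξ i a1) ⬝ᵥ P c) • cs Q (w i))
      (B h0 (((D0 : ZMod Q) • P) c) + β (s0 + ((D0 : ZMod Q) • P) c)) +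
    Sum.elim (∑ i, ((zt ξ (b i) h - zt ξ (b i) h1 - Ξ i ((D0 : ZMod Q) • (a - a1))) ⬝ᵥ P c) •
      cs Q (w i)) 0 with hX
  have e : arg ξ B γ α β h (s0 + ((D0 : ZMod Q) • P) c) =
      X + (arg ξ B γ α β h (s0 + ((D0 : ZMod Q) • P) c) - X) := by abel
  rw [e]
  refine hinv _ _ (fun i => ?_) (fun i => ?_)
  · simp only [hX, arg, Pi.sub_apply, Pi.add_apply, Sum.elim_inr, Pi.zero_apply, map_add, hh,
      LinearMap.add_apply]
    ring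
  · have e1 : (fun l => (arg ξ B γ α β h (s0 + ((D0 : ZMod Q) • P) c) - X) (Sum.inl l)) =
        ((fun l => ξ h l ⬝ᵥ (s0 + ((D0 : ZMod Q) • P) c)) + γ h) -
        (∑ i, (Ξ i a ⬝ᵥ ((D0 : ZMod Q) • P) c) • cs Q (w i) +
        ∑ i, ((D0 : ZMod Q)⁻¹ * (zt ξ (b i) h ⬝ᵥ s0 + cs Q (b i) ⬝ᵥ γ h)) • cs Q (w i) +
        ∑ i, ((zt ξ (b i) h1 - (D0 : ZMod Q) • Ξ i a1) ⬝ᵥ P c) • cs Q (w i) +
        ∑ i, ((zt ξ (b i) h - zt ξ (b i) h1 - Ξ i ((D0 : ZMod Q) • (a - a1))) ⬝ᵥ P c) •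
          cs Q (w i)) := rfl
    rw [e1, dotProduct_sub, dotProduct_add, dotProduct_add, dotProduct_add, dotProduct_add,
      dual hbw, dual hbw, dual hbw, dual hbw, ← zt_dot]
    simp only [LinearMap.smul_apply, dotProduct_add, dotProduct_smul, sub_dotProduct,
      smul_dotProduct, map_smul, map_sub, smul_eq_mul]
    field_simp
    ring

theorem two_step {Tt Ts t1 t2 : ℕ} {κ' : Type} {sa sb : Finset κ'} (ha : sa.Nonempty)
    (hb : sb.Nonempty) (h1 : 1 ≤ Tt) (h2 : Tt ≤ Q) (h3 : 1 ≤ Ts) (h4 : Ts ≤ Q)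
    {v : κ' → V Q n} (hva : ∀ a ∈ sa, Near (v a) t1) (hvb : ∀ a ∈ sb, Near (v a) t2)
    (G : V Q n → V Q n → ℝ) {S : ℝ} (hG : ∀ x s, |G x s| ≤ S) :
    ∃ x0 s0, (𝔼 x ∈ bx Q n Tt, 𝔼 s ∈ bx Q n Ts, G x s) - 2 * n * t1 / Tt * S - 2 * n * t2 / Ts * S
      ≤ 𝔼 a ∈ sa, 𝔼 c ∈ sb, G (x0 + v a) (s0 + v c) := by
  have b1 := bx_nonempty (Q := Q) (n := n) h1
  have b3 := bx_nonempty (Q := Q) (n := n) h3
  have e1 := fol_avg (𝕜 := ℝ) ha h1 h2 hva (fun x => 𝔼 s ∈ bx Q n Ts, G x s) (M := S)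
    fun x => (abs_expect_le _ _).trans (expect_le b3 fun s _ => hG x s)
  rw [Real.norm_eq_abs, abs_le] at e1
  have e2 : ∀ x, (𝔼 s ∈ bx Q n Ts, G x s) - 2 * n * t2 / Ts * S ≤
      𝔼 s ∈ bx Q n Ts, 𝔼 c ∈ sb, G x (s + v c) := fun x => by
    have := fol_avg (𝕜 := ℝ) hb h3 h4 hvb (G x) (M := S) (hG x)
    rw [Real.norm_eq_abs, abs_le] at this
    linarith [this.1]
  have e3 : (𝔼 x ∈ bx Q n Tt, 𝔼 a ∈ sa, 𝔼 s ∈ bx Q n Ts, G (x + v a) s) - 2 * n * t2 / Ts * S ≤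
      𝔼 x ∈ bx Q n Tt, 𝔼 s ∈ bx Q n Ts, 𝔼 a ∈ sa, 𝔼 c ∈ sb, G (x + v a) (s + v c) := by
    rw [← expect_const b1 (2 * n * t2 / Ts * S : ℝ), ← expect_sub_distrib]
    refine expect_le_expect fun x _ => ?_
    rw [expect_comm (bx Q n Ts) sa, ← expect_const ha (2 * n * t2 / Ts * S : ℝ),
      ← expect_sub_distrib]
    exact expect_le_expect fun a _ => e2 _
  obtain ⟨x0, -, hx⟩ := exists_le_of_le_expect b1 e3
  obtain ⟨s0, -, hs⟩ := exists_le_of_le_expect b3 hx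
  exact ⟨x0, s0, by linarith [e1.1]⟩

end Loc

open Vale.Agent.P057Z.Ke Loc Classical in
theorem loc : LOC := by
  intro Q _ n n' r j Tt Ts T' W T0 TP Dm ι _ _ lam τ ω S κ θ ξ B γ α β u Y f Ω c0 A b w D0 P Ξ
    h1 h2 h3 h4 hT' hW hu hY hf hlam hτ hΩ hinv hD hDm hw hbw hP hTP hch hω1 n1 n2 n3 hκ
  have hS : 0 ≤ S := (abs_nonneg _).trans (hf 0)
  have hTt : (0 : ℝ) < Tt := by exact_mod_cast h1
  have hTs : (0 : ℝ) < Ts := by exact_mod_cast h3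
  have hω0 : 0 ≤ ω := le_trans (by positivity) n3
  have hWT : 1 ≤ W * T' := Nat.mul_pos hW hT'
  have ba := bx_nonempty (Q := Q) (n := n') hT'
  have bb := bx_nonempty (Q := Q) (n := n') hWT
  have hbd : ∀ (p q z : ℝ) (x : Fin r ⊕ ι → ZMod Q), 0 ≤ p → p ≤ 1 → 0 ≤ q → q ≤ 1 → |z| ≤ S →
      |p * q * Ω x * z| ≤ S := by
    intro p q z x p0 p1 q0 q1 hz
    have a0 := (hΩ.pos x).le
    have a1 := hΩ.le_one x
    rw [abs_mul, abs_of_nonneg (by positivity : 0 ≤ p * q * Ω x)]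
    calc p * q * Ω x * |z| ≤ 1 * 1 * 1 * S := by gcongr
      _ = S := by ring
  have hu' : ∀ h, 0 ≤ (if h ∈ A then u h else 0) ∧ (if h ∈ A then u h else 0) ≤ 1 := fun h => by
    split_ifs
    · exact hu h
    · exact ⟨le_rfl, zero_le_one⟩
  obtain ⟨x0, s0, hxs⟩ := two_step (t1 := Dm * (n' * (T' * T0))) (t2 := Dm * (n' * (W * T' * T0)))
    ba bb h1 h2 h3 h4 (v := fun a => ((D0 : ZMod Q) • P) a)
    (fun a ha => near_smul (near_map hP (near_of_mem_bx ha)) hDm)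
    (fun a ha => near_smul (near_map hP (near_of_mem_bx ha)) hDm)
    (fun x s => (if x + c0 ∈ A then u (x + c0) else 0) * Y s *
      Ω (arg ξ B γ α β (x + c0) s) * (f (x + c0 + s) - θ)) (S := S)
    (fun x s => hbd _ _ _ _ (hu' _).1 (hu' _).2 (hY s).1 (hY s).2 (hf _))
  have k1 : 2 * (n : ℝ) * ((Dm * (n' * (T' * T0)) : ℕ) : ℝ) / Tt * S ≤ ω * S := by
    refine mul_le_mul_of_nonneg_right ?_ hS
    rw [div_le_iff₀ hTt]
    push_cast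
    exact n1
  have k2 : 2 * (n : ℝ) * ((Dm * (n' * (W * T' * T0)) : ℕ) : ℝ) / Ts * S ≤ ω * S := by
    refine mul_le_mul_of_nonneg_right ?_ hS
    rw [div_le_iff₀ hTs]
    push_cast
    exact n2
  obtain ⟨a1, ha1⟩ : ∃ a1 : V Q n', ∀ a ∈ bx Q n' T', x0 + c0 + ((D0 : ZMod Q) • P) a ∈ A →
      a1 ∈ bx Q n' T' ∧ x0 + c0 + ((D0 : ZMod Q) • P) a1 ∈ A := by
    by_cases h : ∃ a ∈ bx Q n' T', x0 + c0 + ((D0 : ZMod Q) • P) a ∈ A
    · obtain ⟨a, ha, hA⟩ := h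
      exact ⟨a, fun _ _ _ => ⟨ha, hA⟩⟩
    · exact ⟨0, fun a ha hA => absurd ⟨a, ha, hA⟩ h⟩
  refine ⟨x0 + c0 + s0, Cb B ((D0 : ZMod Q) • P) Ξ (fun i => cs Q (w i)),
    fun a => if x0 + c0 + ((D0 : ZMod Q) • P) a ∈ A then u (x0 + c0 + ((D0 : ZMod Q) • P) a) else 0,
    fun c => Y (s0 + ((D0 : ZMod Q) • P) c),
    fun a => Sum.elim (∑ i, ((D0 : ZMod Q)⁻¹ *
        (zt ξ (b i) (x0 + c0 + ((D0 : ZMod Q) • P) a) ⬝ᵥ s0 +
          cs Q (b i) ⬝ᵥ γ (x0 + c0 + ((D0 : ZMod Q) • P) a))) • cs Q (w i))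
      (B (x0 + c0 + ((D0 : ZMod Q) • P) a) s0 + α (x0 + c0 + ((D0 : ZMod Q) • P) a)),
    fun c => Sum.elim (∑ i, ((zt ξ (b i) (x0 + c0 + ((D0 : ZMod Q) • P) a1) -
        (D0 : ZMod Q) • Ξ i a1) ⬝ᵥ P c) • cs Q (w i))
      (B (x0 + c0) (((D0 : ZMod Q) • P) c) + β (s0 + ((D0 : ZMod Q) • P) c)),
    fun a => hu' _, fun c => hY _, ?_⟩
  have fin : ∀ (F G : V Q n' → V Q n' → ℝ),
      (∀ a ∈ bx Q n' T', ∀ c ∈ bx Q n' (W * T'), F a c - 2 * ω * S ≤ G a c) →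
      (𝔼 a ∈ bx Q n' T', 𝔼 c ∈ bx Q n' (W * T'), F a c) - 2 * ω * S ≤
        𝔼 a ∈ bx Q n' T', 𝔼 c ∈ bx Q n' (W * T'), G a c := by
    intro F G h
    rw [← expect_const ba (2 * ω * S), ← expect_sub_distrib]
    refine expect_le_expect fun a ha => ?_
    rw [← expect_const bb (2 * ω * S), ← expect_sub_distrib]
    exact expect_le_expect fun c hc => h a ha c hc
  refine le_trans (by linarith) (fin _ _ fun a ha c hc => ?_) (b := (𝔼 a ∈ bx Q n' T',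
    𝔼 c ∈ bx Q n' (W * T'), (if x0 + ((D0 : ZMod Q) • P) a + c0 ∈ A then
      u (x0 + ((D0 : ZMod Q) • P) a + c0) else 0) * Y (s0 + ((D0 : ZMod Q) • P) c) *
      Ω (arg ξ B γ α β (x0 + ((D0 : ZMod Q) • P) a + c0) (s0 + ((D0 : ZMod Q) • P) c)) *
      (f (x0 + ((D0 : ZMod Q) • P) a + c0 + (s0 + ((D0 : ZMod Q) • P) c)) - θ)) - 2 * ω * S)
  have e1 : x0 + ((D0 : ZMod Q) • P) a + c0 = x0 + c0 + ((D0 : ZMod Q) • P) a := by abel
  have e2 : x0 + c0 + ((D0 : ZMod Q) • P) a + (s0 + ((D0 : ZMod Q) • P) c) =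
      x0 + c0 + s0 + ((D0 : ZMod Q) • P) (a + c) := by
    rw [map_add]
    abel
  rw [e1, e2]
  by_cases hA : x0 + c0 + ((D0 : ZMod Q) • P) a ∈ A
  · obtain ⟨ha1b, ha1A⟩ := ha1 a ha hA
    rw [alg hinv hD hbw (x0 + c0) s0 a1 a c (Ξ := Ξ)]
    have herr : ∀ i m, nm ((zt ξ (b i) (x0 + c0 + ((D0 : ZMod Q) • P) a) -
        zt ξ (b i) (x0 + c0 + ((D0 : ZMod Q) • P) a1) - Ξ i ((D0 : ZMod Q) • (a - a1))) m) ≤ τ :=
      fun i => hch i _ hA _ ha1A _ (near_mono (near_smul (near_sub_of_mem_bx ha ha1b) hDm) hTP)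
        (by simp only [LinearMap.smul_apply, map_smul, map_sub, smul_sub]; abel)
    have hl1 : l1 (Sum.elim (∑ i, ((zt ξ (b i) (x0 + c0 + ((D0 : ZMod Q) • P) a) -
        zt ξ (b i) (x0 + c0 + ((D0 : ZMod Q) • P) a1) - Ξ i ((D0 : ZMod Q) • (a - a1))) ⬝ᵥ P c) •
          cs Q (w i)) (0 : ι → ZMod Q)) ≤ r * (j * (Dm * (n * (n' * (W * T' * T0) * τ)))) := by
      unfold l1
      rw [Fintype.sum_sum_type]
      simp only [Sum.elim_inl, Sum.elim_inr, Pi.zero_apply, nm_zero, sum_const_zero, add_zero]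
      refine (sum_le_card_nsmul _ _ (j * (Dm * (n * (n' * (W * T' * T0) * τ))))
        fun l _ => ?_).trans (by simp)
      rw [Finset.sum_apply]
      refine (nm_sum_le _ _).trans ((sum_le_card_nsmul _ _ (Dm * (n * (n' * (W * T' * T0) * τ)))
        fun i _ => ?_).trans (by simp))
      rw [Pi.smul_apply, smul_eq_mul, mul_comm]
      refine (nm_int_mul_le (w i l) _).trans ?_
      have w1 : |((w i l : ℤ) : ℝ)| ≤ Dm := by
        have := mem_Icc.1 (Fintype.mem_piFinset.1 (hw i) l)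
        exact_mod_cast abs_le.2 this
      have w2 := nm_dot (herr i) (near_map hP (near_of_mem_bx hc))
      push_cast at w2
      exact mul_le_mul w1 w2 (nm_nonneg _) (Nat.cast_nonneg _)
    have hcl := ll_close hΩ ((mul_le_mul_of_nonneg_left hl1 hlam).trans n3) hω0 hω1
    simp only [if_pos hA]
    have key : ∀ (p q z y y' : ℝ), 0 ≤ p → p ≤ 1 → 0 ≤ q → q ≤ 1 → |z| ≤ S → |y - y'| ≤ 2 * ω →
        p * q * y * z - 2 * ω * S ≤ p * q * y' * z := by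
      intro p q z y y' p0 p1 q0 q1 hz hy
      have : |p * q * (y - y') * z| ≤ 2 * ω * S := by
        rw [abs_mul, abs_mul, abs_of_nonneg (by positivity : 0 ≤ p * q)]
        calc p * q * |y - y'| * |z| ≤ 1 * 1 * (2 * ω) * S := by gcongr
          _ = 2 * ω * S := by ring
      nlinarith [le_abs_self (p * q * (y - y') * z)]
    exact key _ _ _ _ _ (hu _).1 (hu _).2 (hY _).1 (hY _).2 (hf _) (hcl _)
  · simp only [if_neg hA, zero_mul]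
    nlinarith

end

end Vale.Agent.P057Z.Dr
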