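import Vale.Agent.P057Z.Dr.Sk

/-! Block Dr: numerical facts and the greedy family. -/

set_option linter.all false

open Finset Real
open scoped BigOperators

namespace Vale.Agent.P057Z.Dr.Num

theorem greedy {α : Type} [Fintype α] (P : Finset α → Prop) (hP : ∀ E, P E → E.Nonempty) :
    ∃ Fam : Finset (Finset α), (∀ E ∈ Fam, P E) ∧
      (∀ E ∈ Fam, ∀ E' ∈ Fam, E ≠ E' → Disjoint E E') ∧
      ∀ E, P E → ∃ E' ∈ Fam, ¬ Disjoint E E' := by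
  classical
  obtain ⟨L, hL, hmax⟩ := exists_max_image (univ.filter fun s : Finset (Finset α) =>
    (∀ E ∈ s, P E) ∧ ∀ E ∈ s, ∀ E' ∈ s, E ≠ E' → Disjoint E E') (fun s => s.card) ⟨∅, by simp⟩
  rw [mem_filter] at hL
  refine ⟨L, hL.2.1, hL.2.2, fun E hE => ?_⟩
  by_contra hcon
  push Not at hcon
  have hEL : E ∉ L := fun h => (hP E hE).ne_empty (disjoint_self.1 (hcon E h))
  have := hmax (insert E L) (by
    simp only [mem_filter, mem_univ, true_and, mem_insert]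
    refine ⟨?_, ?_⟩
    · rintro x (rfl | hx)
      · exact hE
      · exact hL.2.1 x hx
    · rintro x (rfl | hx) y (rfl | hy) hxy
      · exact absurd rfl hxy
      · exact hcon y hy
      · exact (hcon x hx).symm
      · exact hL.2.2 x hx y hy hxy)
  rw [card_insert_of_notMem hEL] at this
  omega

theorem pe {x t s : ℝ} {k : ℕ} (h0 : 0 ≤ x) (hx : x ≤ exp t) (ht : 0 ≤ t) (hk : (k : ℝ) ≤ s) :
    x ^ k ≤ exp (t * s) := by
  calc x ^ k ≤ exp t ^ k := pow_le_pow_left₀ h0 hx k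
    _ = exp (k * t) := (exp_nat_mul t k).symm
    _ ≤ exp (t * s) := exp_le_exp.2 (by nlinarith)

theorem le_e {x y : ℝ} (h : x ≤ y) : x ≤ exp y := by linarith [add_one_le_exp y]

theorem pw {Y : ℝ} (hY : 200 ≤ Y) {a b : ℕ} (h : a ≤ b) : Y ^ a ≤ Y ^ b :=
  pow_le_pow_right₀ (by linarith) h

theorem pw1 {Y : ℝ} (hY : 200 ≤ Y) {a b : ℕ} (h : a + 1 ≤ b) : 200 * Y ^ a ≤ Y ^ b := by
  have h1 : 0 ≤ Y ^ a := by positivity
  calc 200 * Y ^ a ≤ Y ^ (a + 1) := by rw [pow_succ]; nlinarith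
    _ ≤ Y ^ b := pw hY h

/-- the number of classes -/
theorem classes {Y : ℝ} (hY : 200 ≤ Y) {a r K0 : ℕ} (hr : (r : ℝ) ≤ Y)
    (hK : (K0 : ℝ) ≤ exp (10 * Y)) :
    ((r : ℝ) + 1) * ((2 * K0 + 1) ^ r / exp (-Y ^ a) + 1) ^ r ≤ exp (Y ^ (a + 4)) := by
  have h0 : 0 ≤ Y := by linarith
  have e1 : (1 : ℝ) ≤ exp (10 * Y) := one_le_exp (by linarith)
  have e2 : (3 : ℝ) ≤ exp Y := le_e (by linarith)
  have h1 : (2 * K0 + 1 : ℝ) ≤ exp (11 * Y) := by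
    rw [show 11 * Y = Y + 10 * Y by ring, exp_add]
    nlinarith
  have h2 := pe (by positivity) h1 (by positivity) hr
  have p1 : Y ^ 2 ≤ Y ^ (a + 2) := pw hY (by omega)
  have p2 : Y ^ a ≤ Y ^ (a + 2) := pw hY (by omega)
  have p3 : Y ^ 1 ≤ Y ^ (a + 2) := pw hY (by omega)
  have h3 : (2 * K0 + 1 : ℝ) ^ r / exp (-Y ^ a) ≤ exp (12 * Y ^ (a + 2)) := by
    rw [div_le_iff₀ (exp_pos _), ← exp_add]
    exact h2.trans (exp_le_exp.2 (by nlinarith))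
  have e3 : (1 : ℝ) ≤ exp (12 * Y ^ (a + 2)) := one_le_exp (by positivity)
  have e4 : (3 : ℝ) ≤ exp (Y ^ (a + 2)) := le_e (by linarith)
  have h4 : (2 * K0 + 1 : ℝ) ^ r / exp (-Y ^ a) + 1 ≤ exp (13 * Y ^ (a + 2)) := by
    rw [show 13 * Y ^ (a + 2) = Y ^ (a + 2) + 12 * Y ^ (a + 2) by ring, exp_add]
    nlinarith
  have h5 := pe (by positivity) h4 (by positivity) hr
  have h6 : (r : ℝ) + 1 ≤ exp Y := by linarith [add_one_le_exp Y]
  have p4 : Y ^ 1 ≤ Y ^ (a + 3) := pw hY (by omega)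
  have p5 : 200 * Y ^ (a + 3) ≤ Y ^ (a + 4) := pw1 hY le_rfl
  calc _ ≤ exp Y * exp (13 * Y ^ (a + 2) * Y) :=
        mul_le_mul h6 h5 (by positivity) (exp_pos _).le
    _ ≤ _ := by
      rw [← exp_add]
      refine exp_le_exp.2 ?_
      have : 13 * Y ^ (a + 2) * Y = 13 * Y ^ (a + 3) := by ring
      linarith

/-- the size of the minor -/
theorem minor {Y : ℝ} (hY : 200 ≤ Y) {j K0 : ℕ} (hj : (j : ℝ) ≤ Y)
    (hK : (K0 : ℝ) ≤ exp (10 * Y)) :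
    ((j.factorial * (K0 + 1) ^ j : ℕ) : ℝ) ≤ exp (Y ^ 3) := by
  have e1 : (1 : ℝ) ≤ exp (10 * Y) := one_le_exp (by linarith)
  have e2 : (2 : ℝ) ≤ exp Y := le_e (by linarith)
  have h1 : (K0 + 1 : ℝ) ≤ exp (11 * Y) := by
    rw [show 11 * Y = Y + 10 * Y by ring, exp_add]
    nlinarith
  have h2 := pe (by positivity) h1 (by linarith) hj
  have h3 := pe (Nat.cast_nonneg j) (le_e hj) (by linarith) hj
  have h4 : (j.factorial : ℝ) ≤ (j : ℝ) ^ j := by exact_mod_cast Nat.factorial_le_pow j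
  have p5 : 200 * Y ^ 2 ≤ Y ^ 3 := pw1 hY le_rfl
  push_cast
  calc _ ≤ exp (Y * Y) * exp (11 * Y * Y) :=
        mul_le_mul (h4.trans h3) h2 (by positivity) (exp_pos _).le
    _ ≤ _ := by
      rw [← exp_add]
      exact exp_le_exp.2 (by nlinarith)

/-- the error of the drop -/
theorem dropErr {Y κ : ℝ} (hY : 200 ≤ Y) (hκ : exp (-Y) ≤ κ) :
    exp Y * (exp (24 * Y ^ 2) * exp (-(30 * Y ^ 2)) + 2 * exp (-(10 * Y))) ≤ κ / 10 := by
  have h1 : exp (24 * Y ^ 2) * exp (-(30 * Y ^ 2)) ≤ exp (-(10 * Y)) := by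
    rw [← exp_add]
    exact exp_le_exp.2 (by nlinarith)
  have h2 : exp Y * exp (-(10 * Y)) * exp (8 * Y) = exp (-Y) := by
    rw [← exp_add, ← exp_add]
    ring_nf
  have h3 : (30 : ℝ) ≤ exp (8 * Y) := le_e (by linarith)
  have h4 := exp_pos Y
  have h5 : 0 < exp Y * exp (-(10 * Y)) := by positivity
  nlinarith

/-- the last margin -/
theorem lastErr {Y Z W κ N : ℝ} {a C : ℕ} (hY : 200 ≤ Y) (hZ : Y ≤ Z) (hC : a + 6 ≤ C)
    (hW : exp (Z ^ C) ≤ W) (hκ : exp (-Y) ≤ κ) (hN0 : 0 < N) (hN : N ≤ exp (Y ^ (a + 4))) :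
    exp (-Y ^ C) ≤ κ / 2 / N - 4 * exp Y * (1 / W) := by
  have p1 : Y ^ 1 ≤ Y ^ (a + 4) := pw hY (by omega)
  have p2 : 200 * Y ^ (a + 4) ≤ Y ^ (a + 5) := pw1 hY le_rfl
  have p3 : 200 * Y ^ (a + 5) ≤ Y ^ (a + 6) := pw1 hY le_rfl
  have p4 : Y ^ (a + 6) ≤ Z ^ C :=
    (pw hY hC).trans (pow_le_pow_left₀ (by linarith) hZ C)
  have p5 : Y ^ (a + 5) ≤ Y ^ C := pw hY (by omega)
  have e4 : (4 : ℝ) ≤ exp Y := le_e (by linarith)
  have hW0 : 0 < W := (exp_pos _).trans_le hW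
  have h1 : 2 * exp (-Y ^ (a + 5)) ≤ κ / 2 / N := by
    rw [le_div_iff₀ hN0, le_div_iff₀ two_pos]
    calc 2 * exp (-Y ^ (a + 5)) * N * 2 = 4 * exp (-Y ^ (a + 5)) * N := by ring
      _ ≤ exp Y * exp (-Y ^ (a + 5)) * exp (Y ^ (a + 4)) := by gcongr
      _ ≤ exp (-Y) := by
        rw [← exp_add, ← exp_add]
        exact exp_le_exp.2 (by linarith)
      _ ≤ κ := hκ
  have h2 : 4 * exp Y * (1 / W) ≤ exp (-Y ^ (a + 5)) := by
    rw [mul_one_div, div_le_iff₀ hW0]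
    calc 4 * exp Y ≤ exp Y * exp Y := by gcongr
      _ ≤ exp (-Y ^ (a + 5)) * exp (Z ^ C) := by
        rw [← exp_add, ← exp_add]
        exact exp_le_exp.2 (by linarith)
      _ ≤ _ := by gcongr
  have h3 : exp (-Y ^ C) ≤ exp (-Y ^ (a + 5)) := exp_le_exp.2 (by linarith)
  linarith

theorem div2 {a b : ℕ} (hb : 0 < b) (h : b ≤ a) : a ≤ 2 * b * (a / b) := by
  have h1 := Nat.div_pos h hb
  have h2 := Nat.lt_mul_div_succ a hb
  nlinarith

/-- the sides -/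
theorem sides {W T : ℕ} (hW : 2 ≤ W) (hT : W ^ 20 ≤ T) :
    W ^ 16 ≤ T / W ^ 4 ∧ W ^ 11 ≤ T / W ^ 4 / W ^ 5 ∧ T ≤ W ^ 11 * (T / W ^ 4 / W ^ 5) := by
  have h0 : 0 < W := by omega
  have h1 : W ^ 16 ≤ T / W ^ 4 := (Nat.le_div_iff_mul_le (by positivity)).2 (by
    rw [← pow_add]; exact hT)
  have h2 : W ^ 11 ≤ T / W ^ 4 / W ^ 5 := (Nat.le_div_iff_mul_le (by positivity)).2 (by
    rw [← pow_add]; exact h1)
  have h3 := div2 (a := T) (b := W ^ 4) (by positivity)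
    ((Nat.pow_le_pow_right h0 (by norm_num)).trans hT)
  have h4 := div2 (a := T / W ^ 4) (b := W ^ 5) (by positivity)
    ((Nat.pow_le_pow_right h0 (by norm_num)).trans h1)
  refine ⟨h1, h2, ?_⟩
  calc T ≤ 2 * W ^ 4 * (2 * W ^ 5 * (T / W ^ 4 / W ^ 5)) :=
        h3.trans (Nat.mul_le_mul_left _ h4)
    _ ≤ W * W ^ 4 * (W * W ^ 5 * (T / W ^ 4 / W ^ 5)) := by gcongr
    _ = _ := by ring

/-- the new side -/
theorem newSide {W T Tc T0 J : ℕ} {Λ : ℝ} (hW : 2 ≤ W) (hJ : 1 ≤ J) (h1 : W ^ 11 ≤ Tc)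
    (h2 : T ≤ W ^ 11 * Tc) (h3 : 1 ≤ T) (h4 : 1 ≤ T0)
    (h5 : log T0 ≤ log Tc / ((2 * J : ℕ) : ℝ)) (hΛ : 14 * log W ≤ Λ) :
    1 ≤ Tc / T0 / W ∧ (1 - 1 / (J : ℝ)) * log T - Λ ≤ log (Tc / T0 / W : ℕ) := by
  have h0 : 0 < W := by omega
  have hc : 1 ≤ Tc := (Nat.one_le_pow _ _ h0).trans h1
  have hJ' : (1 : ℝ) ≤ J := by exact_mod_cast hJ
  have lc : 0 ≤ log (Tc : ℝ) := log_natCast_nonneg _
  have lw : 0 ≤ log (W : ℝ) := log_natCast_nonneg _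
  have pT0 : (0 : ℝ) < T0 := by exact_mod_cast h4
  have pTc : (0 : ℝ) < Tc := by exact_mod_cast hc
  have pW : (0 : ℝ) < W := by exact_mod_cast h0
  push_cast at h5
  have a1 : log (Tc : ℝ) / (2 * J) ≤ log (Tc : ℝ) / 2 :=
    div_le_div_of_nonneg_left lc two_pos (by linarith)
  have a2 : T0 * T0 ≤ Tc := by
    have : log ((T0 : ℝ) * T0) ≤ log Tc := by
      rw [log_mul pT0.ne' pT0.ne']
      linarith
    exact_mod_cast (log_le_log_iff (by positivity) pTc).1 this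
  have a3 : W * W ≤ Tc := by
    calc W * W = W ^ 2 := by ring
      _ ≤ W ^ 11 := Nat.pow_le_pow_right h0 (by norm_num)
      _ ≤ Tc := h1
  have a4 : W * T0 ≤ Tc := by
    by_contra h
    push Not at h
    nlinarith [Nat.mul_le_mul a2 a3]
  have a5 : W ≤ Tc / T0 := (Nat.le_div_iff_mul_le h4).2 a4
  have a6 : 1 ≤ Tc / T0 / W := Nat.div_pos a5 h0
  have a7 := div2 (a := Tc) (b := T0) h4 (by nlinarith)
  have a8 := div2 (a := Tc / T0) (b := W) h0 a5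
  have a9 : Tc ≤ W ^ 3 * (T0 * (Tc / T0 / W)) := by
    calc Tc ≤ 2 * T0 * (2 * W * (Tc / T0 / W)) := a7.trans (Nat.mul_le_mul_left _ a8)
      _ ≤ W * T0 * (W * W * (Tc / T0 / W)) := by gcongr
      _ = _ := by ring
  refine ⟨a6, ?_⟩
  have pT' : (0 : ℝ) < (Tc / T0 / W : ℕ) := by exact_mod_cast a6
  have b1 : log (Tc : ℝ) ≤ 3 * log W + (log T0 + log (Tc / T0 / W : ℕ)) := by
    rw [← log_mul pT0.ne' pT'.ne', ← Nat.cast_ofNat, ← log_pow,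
      ← log_mul (by positivity) (by positivity)]
    exact log_le_log pTc (by exact_mod_cast a9)
  have b2 : log (T : ℝ) ≤ 11 * log W + log Tc := by
    rw [← Nat.cast_ofNat, ← log_pow, ← log_mul (by positivity) pTc.ne']
    exact log_le_log (by exact_mod_cast h3) (by exact_mod_cast h2)
  have b3 : log (Tc : ℝ) / (2 * J) ≤ 1 / J * log Tc := by
    rw [one_div, inv_mul_eq_div]
    exact div_le_div_of_nonneg_left lc (by linarith) (by linarith)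
  have b4 : 0 ≤ 1 - 1 / (J : ℝ) := by
    rw [sub_nonneg, div_le_one (by linarith)]
    exact hJ'
  have b5 : 0 ≤ 1 / (J : ℝ) := by positivity
  nlinarith [mul_le_mul_of_nonneg_left b2 b4, mul_nonneg b5 lw]

end Vale.Agent.P057Z.Dr.Num
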