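import Vale.Agent.P057Z.Sk
import Vale.Agent.P057Z.Bas0
import Vale.Agent.P057Z.Ke.Fol

/-! Block Dr: definitions and statements of the pieces of DROP. -/

set_option linter.all false

open Finset
open scoped BigOperators

namespace Vale.Agent.P057Z.Dr

noncomputable section

variable {Q : ℕ} [Fact Q.Prime] {n r : ℕ} {ι : Type} [Fintype ι] [DecidableEq ι]

/-- an integer combination of the frequencies -/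
def zt (ξ : V Q n → Fin r → V Q n) (k : Fin r → ℤ) (h : V Q n) : V Q n :=
  ∑ l, (k l : ZMod Q) • ξ h l

/-- the argument of the kernel -/
def arg (ξ : V Q n → Fin r → V Q n) (B : Bil Q n ι) (γ : V Q n → Fin r → ZMod Q)
    (α β : V Q n → ι → ZMod Q) (h s : V Q n) : Fin r ⊕ ι → ZMod Q :=
  Sum.elim (fun i => ξ h i ⬝ᵥ s + γ h i) (B h s + α h + β s)

/-- the frequencies whose first block lies in W -/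
def KK (ι : Type) (W : Submodule (ZMod Q) (Fin r → ZMod Q)) :
    Submodule (ZMod Q) (Fin r ⊕ ι → ZMod Q) :=
  W.comap (LinearMap.funLeft (ZMod Q) (ZMod Q) Sum.inl)

theorem mem_KK {W : Submodule (ZMod Q) (Fin r → ZMod Q)} {k : Fin r ⊕ ι → ZMod Q} :
    k ∈ KK ι W ↔ (fun l => k (Sum.inl l)) ∈ W := Iff.rfl

/-- the corner of a tile -/
def ctr (Q : ℕ) (Tt : ℕ) (j : Fin n → ℕ) : V Q n := fun i => ((Tt * j i : ℕ) : ZMod Q)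

theorem tile_eq (Tt : ℕ) (j : Fin n → ℕ) :
    tile Q n Tt j = (bx Q n Tt).image fun x => x + ctr Q Tt j := rfl

/-- the span of the small frequencies which are covered at h -/
def Ws (K0 : ℕ) (Fam : (Fin r → ℤ) → Finset (Finset (V Q n))) (h : V Q n) :
    Submodule (ZMod Q) (Fin r → ZMod Q) :=
  Submodule.span (ZMod Q) (cs Q '' {k | k ∈ Sm (Fin r) K0 ∧ ∃ E ∈ Fam k, h ∈ E})

theorem zt_dot (ξ : V Q n → Fin r → V Q n) (k : Fin r → ℤ) (h s : V Q n) :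
    zt ξ k h ⬝ᵥ s = cs Q k ⬝ᵥ fun l => ξ h l ⬝ᵥ s := by
  unfold zt
  rw [sum_dotProduct]
  simp only [smul_dotProduct, smul_eq_mul]
  rfl

/-- boxes and tiles -/
def TIL : Prop :=
  ∀ (Q : ℕ) [Fact Q.Prime] (n : ℕ),
    (∀ (T T1 : ℕ) (S : ℝ) (g : V Q n → ℝ), 1 ≤ T1 → T1 ≤ T → T ≤ Q → (∀ x, |g x| ≤ S) →
      |(𝔼 x ∈ bx Q n T, g x) - 𝔼 x ∈ bx Q n T1, g x| ≤ 2 * n * ((T : ℝ) - T1) / T * S) ∧
    (∀ (I Tt : ℕ) (g : V Q n → ℝ), 1 ≤ I → 1 ≤ Tt → I * Tt ≤ Q →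
      ∃ j : Fin n → ℕ, (∀ i, j i < I) ∧
        𝔼 x ∈ bx Q n (I * Tt), g x ≤ 𝔼 x ∈ bx Q n Tt, g (x + ctr Q Tt j)) ∧
    ∀ (I Tt : ℕ) (j j' : Fin n → ℕ) (h : V Q n), I * Tt ≤ Q → (∀ i, j i < I) → (∀ i, j' i < I) →
      h ∈ tile Q n Tt j → h ∈ tile Q n Tt j' → j = j'

/-- dropping the frequencies outside W h -/
def DRP : Prop :=
  ∀ (Q : ℕ) [Fact Q.Prime] (n r T Ts K0 : ℕ) (ι : Type) [Fintype ι] [DecidableEq ι]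
    (M η δ S : ℝ) (ξ : V Q n → Fin r → V Q n) (B : Bil Q n ι) (γ : V Q n → Fin r → ZMod Q)
    (α β : V Q n → ι → ZMod Q) (u Y g : V Q n → ℝ) (Φ : (Fin r ⊕ ι → ZMod Q) → ℝ)
    (W : V Q n → Submodule (ZMod Q) (Fin r → ZMod Q)),
    2 < Q → 1 ≤ T → 1 ≤ Ts → (∀ x y, B x y = B y x) → U01 u → U01 Y → 0 < S → (∀ z, |g z| ≤ S) →
    0 ≤ δ → FA Φ K0 M η →
    (∀ k ∈ Sm (Fin r) K0, ∀ c Y' G : V Q n → ℂ, (∀ h, ‖c h‖ ≤ 1) →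
      (∀ h, cs Q k ∈ W h → c h = 0) → (∀ h, h ∉ bx Q n T → c h = 0) → (∀ s, ‖Y' s‖ ≤ 1) →
      (∀ z, ‖G z‖ ≤ 1) →
      ‖𝔼 h ∈ bx Q n T, 𝔼 s ∈ bx Q n Ts, c h * Y' s * G (h + s) * ch (zt ξ k h ⬝ᵥ s)‖ ≤ δ) →
    |𝔼 h ∈ bx Q n T, 𝔼 s ∈ bx Q n Ts, u h * Y s *
      (Φ (arg ξ B γ α β h s) - avg (KK ι (W h)) Φ (arg ξ B γ α β h s)) * g (h + s)|
      ≤ S * (M * δ + 2 * η)

open Classical in
/-- choice of a class: a basis of the span and the pieces that cover it -/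
def CLS : Prop :=
  ∀ (Q : ℕ) [Fact Q.Prime] (n r Tt I K0 : ℕ) (η κ : ℝ)
    (Fam : (Fin r → ℤ) → Finset (Finset (V Q n))) (j0 : Fin n → ℕ)
    (F : V Q n → Submodule (ZMod Q) (Fin r → ZMod Q) → ℝ),
    1 ≤ Tt → I * Tt ≤ Q → (∀ i, j0 i < I) → 0 < η → 0 ≤ κ →
    (∀ k, ∀ E ∈ Fam k, ∃ j : Fin n → ℕ, (∀ i, j i < I) ∧ E ⊆ tile Q n Tt j ∧
      η * (Tt : ℝ) ^ n ≤ E.card) →
    (∀ k, ∀ E ∈ Fam k, ∀ E' ∈ Fam k, E ≠ E' → Disjoint E E') →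
    κ ≤ 𝔼 x ∈ bx Q n Tt, F (x + ctr Q Tt j0) (Ws K0 Fam (x + ctr Q Tt j0)) →
    ∃ (j : ℕ) (b : Fin j → Fin r → ℤ) (E : Fin j → Finset (V Q n)) (A : Finset (V Q n)),
      j ≤ r ∧ (∀ i, b i ∈ Sm (Fin r) K0) ∧ LinearIndependent (ZMod Q) (fun i => cs Q (b i)) ∧
      (∀ i, E i ∈ Fam (b i)) ∧ (∀ i, A ⊆ E i) ∧
      κ / ((r + 1) * ((2 * K0 + 1) ^ r / η + 1) ^ r) ≤ 𝔼 x ∈ bx Q n Tt,
        if x + ctr Q Tt j0 ∈ A then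
          F (x + ctr Q Tt j0) (Submodule.span (ZMod Q) (Set.range fun i => cs Q (b i))) else 0

open Classical in
/-- localisation to a progression on which the frequencies are affine -/
def LOC : Prop :=
  ∀ (Q : ℕ) [Fact Q.Prime] (n n' r j Tt Ts T' W T0 TP Dm : ℕ) (ι : Type) [Fintype ι]
    [DecidableEq ι] (lam τ ω S κ θ : ℝ) (ξ : V Q n → Fin r → V Q n) (B : Bil Q n ι)
    (γ : V Q n → Fin r → ZMod Q) (α β : V Q n → ι → ZMod Q) (u Y f : V Q n → ℝ)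
    (Ω : (Fin r ⊕ ι → ZMod Q) → ℝ) (c0 : V Q n) (A : Finset (V Q n)) (b w : Fin j → Fin r → ℤ)
    (D0 : ℤ) (P : V Q n' →ₗ[ZMod Q] V Q n) (Ξ : Fin j → V Q n' →ₗ[ZMod Q] V Q n),
    1 ≤ Tt → Tt ≤ Q → 1 ≤ Ts → Ts ≤ Q → 1 ≤ T' → 1 ≤ W → U01 u → U01 Y →
    (∀ z, |f z - θ| ≤ S) → 0 ≤ lam → 0 ≤ τ → LL lam Ω →
    (∀ x v, (∀ i, v (Sum.inr i) = 0) → (∀ i, cs Q (b i) ⬝ᵥ (fun l => v (Sum.inl l)) = 0) →
      Ω (x + v) = Ω x) →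
    (D0 : ZMod Q) ≠ 0 → |D0| ≤ Dm → (∀ i, w i ∈ Sm (Fin r) Dm) →
    (∀ i i', b i ⬝ᵥ w i' = if i = i' then D0 else 0) → SmallMap P T0 → Dm * T' ≤ TP →
    (∀ i, ∀ h ∈ A, ∀ h' ∈ A, ∀ a : V Q n', Near a TP → h - h' = P a →
      ∀ m, nm ((zt ξ (b i) h - zt ξ (b i) h' - Ξ i a) m) ≤ τ) →
    ω ≤ 1 → 2 * (n : ℝ) * (Dm * (n' * (T' * T0))) ≤ ω * Tt →
    2 * (n : ℝ) * (Dm * (n' * (W * T' * T0))) ≤ ω * Ts →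
    lam * (r * (j * (Dm * (n * (n' * (W * T' * T0) * τ))))) ≤ ω →
    κ ≤ 𝔼 x ∈ bx Q n Tt, 𝔼 s ∈ bx Q n Ts, (if x + c0 ∈ A then u (x + c0) else 0) * Y s *
      Ω (arg ξ B γ α β (x + c0) s) * (f (x + c0 + s) - θ) →
    ∃ (x0 : V Q n) (C' : Bil Q n' (Fin r ⊕ ι)),
      Rect (fun z => f (x0 + ((D0 : ZMod Q) • P) z)) θ T' W C' Ω (κ - 4 * S * ω)

/-- smoothing of the product of the two kernels -/
def SMO : Prop :=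
  ∀ (Q : ℕ) [Fact Q.Prime] (n r T W : ℕ) (ι : Type) [Fintype ι] [DecidableEq ι]
    (Y ε θ ρn ρ5 κ : ℝ) (f : V Q n → ℝ) (ξ : V Q n → Fin r → V Q n) (B : Bil Q n ι),
    0 < ε → ε ≤ 1 / 100 → 8 / ε ≤ Y → (r : ℝ) ≤ Y → (Fintype.card ι : ℝ) ≤ Y →
    Real.exp (10 * Y) ≤ Q → (∀ x, 0 ≤ f x) → 0 ≤ θ → Real.exp (-Y) ≤ ρ5 → ρ5 ≤ ρn → 0 ≤ κ →
    S3 f θ T W ξ B ρn ρ5 κ →
    ∃ (u Y' : V Q n → ℝ) (γ : V Q n → Fin r → ZMod Q) (α β : V Q n → ι → ZMod Q)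
      (Φ : (Fin r ⊕ ι → ZMod Q) → ℝ) (K0 : ℕ), U01 u ∧ U01 Y' ∧ (K0 : ℝ) ≤ Real.exp (10 * Y) ∧
      LL (1 / ρ5) Φ ∧ FA Φ K0 (Real.exp (24 * Y ^ 2)) (Real.exp (-(10 * Y))) ∧
      9 / 10 * κ ≤ 𝔼 h ∈ bx Q n T, 𝔼 s ∈ bx Q n (W * T),
        u h * Y' s * Φ (arg ξ B γ α β h s) * (f (h + s) - (1 - ε) * θ)

end

end Vale.Agent.P057Z.Dr
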