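import Vale.Agent.P057Z.Dr.Loc
import Vale.Agent.P057Z.Dr.Num

/-! Block Dr: DROP from its pieces. -/

set_option linter.all false

open Finset Real
open scoped BigOperators

namespace Vale.Agent.P057Z.Dr

noncomputable section

namespace Top

open Vale.Agent.P057Z.Ke Num

variable {Q : ℕ} [Fact Q.Prime] {n r : ℕ} {ι : Type} [Fintype ι] [DecidableEq ι]

/-- a piece: a dense subset of a tile with a chart -/
def Pc (ζ : V Q n → V Q n) (I Tt Tc W : ℕ) (η R τ : ℝ) (E : Finset (V Q n)) : Prop :=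
  ∃ (j : Fin n → ℕ) (Θ : Finset (V Q n)), (∀ i, j i < I) ∧ E ⊆ tile Q n Tt j ∧
    η * (Tt : ℝ) ^ n ≤ E.card ∧ (Θ.card : ℝ) ≤ R ∧ Chart ζ E Θ Tc W τ

/-- maximal families of pieces -/
theorem fam {I Tt Tc W T Ts K0 : ℕ} {η R τ δ : ℝ} (ξ : V Q n → Fin r → V Q n) (hη : 0 < η)
    (hTt : 1 ≤ Tt)
    (hFE : ∀ (ζ : V Q n → V Q n) (U : Finset (V Q n)) (c Y G : V Q n → ℂ), U ⊆ bx Q n T →
      (∀ h, ‖c h‖ ≤ 1) → (∀ h, h ∉ U → c h = 0) → (∀ s, ‖Y s‖ ≤ 1) → (∀ z, ‖G z‖ ≤ 1) →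
      δ ≤ ‖𝔼 h ∈ bx Q n T, 𝔼 s ∈ bx Q n Ts, c h * Y s * G (h + s) * ch (ζ h ⬝ᵥ s)‖ →
      ∃ E, E ⊆ U ∧ Pc ζ I Tt Tc W η R τ E) :
    ∃ Fam : (Fin r → ℤ) → Finset (Finset (V Q n)),
      (∀ k, ∀ E ∈ Fam k, Pc (zt ξ k) I Tt Tc W η R τ E) ∧
      (∀ k, ∀ E ∈ Fam k, ∀ E' ∈ Fam k, E ≠ E' → Disjoint E E') ∧
      ∀ k ∈ Sm (Fin r) K0, ∀ c Y' G : V Q n → ℂ, (∀ h, ‖c h‖ ≤ 1) →
        (∀ h, cs Q k ∈ Ws K0 Fam h → c h = 0) → (∀ h, h ∉ bx Q n T → c h = 0) →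
        (∀ s, ‖Y' s‖ ≤ 1) → (∀ z, ‖G z‖ ≤ 1) →
        ‖𝔼 h ∈ bx Q n T, 𝔼 s ∈ bx Q n Ts, c h * Y' s * G (h + s) * ch (zt ξ k h ⬝ᵥ s)‖ ≤ δ := by
  classical
  have hne : ∀ k E, Pc (zt ξ k) I Tt Tc W η R τ E → E.Nonempty := by
    rintro k E ⟨j, Θ, -, -, h, -⟩
    have : (0 : ℝ) < Tt := by exact_mod_cast hTt
    have h2 : (0 : ℝ) < E.card := lt_of_lt_of_le (by positivity) h
    exact card_pos.1 (by exact_mod_cast h2)
  choose Fam h1 h2 h3 using fun k => greedy (Pc (zt ξ k) I Tt Tc W η R τ) (hne k)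
  refine ⟨Fam, h1, h2, fun k hk c Y' G hc hc1 hc2 hY hG => ?_⟩
  by_contra hcon
  obtain ⟨E, hE, hP⟩ := hFE (zt ξ k) ((bx Q n T).filter fun h => cs Q k ∉ Ws K0 Fam h) c Y' G
    (filter_subset _ _) hc (fun h hh => by
      by_cases hb : h ∈ bx Q n T
      · by_contra h0
        exact hh (mem_filter.2 ⟨hb, fun hw => h0 (hc1 h hw)⟩)
      · exact hc2 h hb) hY hG (not_le.1 hcon).le
  obtain ⟨E', hE', hd⟩ := h3 k E hP
  obtain ⟨h, hh, hh'⟩ := not_disjoint_iff.1 hd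
  exact (mem_filter.1 (hE hh)).2 (Submodule.subset_span ⟨k, ⟨hk, E', hE', hh'⟩, rfl⟩)

theorem inv (hA : AVG) {j : ℕ} (b : Fin j → Fin r → ℤ) (Φ : (Fin r ⊕ ι → ZMod Q) → ℝ)
    (x v : Fin r ⊕ ι → ZMod Q) (h1 : ∀ i, v (Sum.inr i) = 0)
    (h2 : ∀ i, cs Q (b i) ⬝ᵥ (fun l => v (Sum.inl l)) = 0) :
    avg (KK ι (Submodule.span (ZMod Q) (Set.range fun i => cs Q (b i)))) Φ (x + v) =
      avg (KK ι (Submodule.span (ZMod Q) (Set.range fun i => cs Q (b i)))) Φ x := by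
  refine (hA Q (Fin r ⊕ ι) _ Φ).2.1 x v (mem_perp.2 fun k hk => ?_)
  have h3 : ∀ y ∈ Submodule.span (ZMod Q) (Set.range fun i => cs Q (b i)),
      y ⬝ᵥ (fun l => v (Sum.inl l)) = 0 := by
    intro y hy
    induction hy using Submodule.span_induction with
    | mem y hy =>
      obtain ⟨i, rfl⟩ := hy
      exact h2 i
    | zero => exact zero_dotProduct _
    | add y z _ _ a c => rw [add_dotProduct, a, c, add_zero]
    | smul c y _ a => rw [smul_dotProduct, a, smul_zero]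
  have h4 := h3 _ (mem_KK.1 hk)
  unfold dotProduct at h4 ⊢
  rw [Fintype.sum_sum_type, h4]
  simp [h1]

theorem sm_mono {κ : Type} [Fintype κ] [DecidableEq κ] {a c : ℕ} (h : a ≤ c) {k : κ → ℤ}
    (hk : k ∈ Sm κ a) : k ∈ Sm κ c := by
  refine Fintype.mem_piFinset.2 fun i => ?_
  have := mem_Icc.1 (Fintype.mem_piFinset.1 hk i)
  exact mem_Icc.2 ⟨by omega, by omega⟩

theorem bd {p q y z S : ℝ} (hp : 0 ≤ p ∧ p ≤ 1) (hq : 0 ≤ q ∧ q ≤ 1) (y0 : 0 ≤ y) (y1 : y ≤ 1)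
    (hz : |z| ≤ S) : |p * q * y * z| ≤ S := by
  obtain ⟨p0, p1⟩ := hp
  obtain ⟨q0, q1⟩ := hq
  have hS : 0 ≤ S := (abs_nonneg _).trans hz
  rw [abs_mul, abs_of_nonneg (by positivity : 0 ≤ p * q * y)]
  calc p * q * y * |z| ≤ 1 * 1 * 1 * S := by gcongr
    _ = S := by ring

/-- energy and chart with the chosen parameters -/
theorem fe (hEN : EN) {CF : ℕ} {X Y Z : ℝ} {W T : ℕ}
    (hFR : ∀ (X Y Z τ : ℝ) (Q : ℕ) [Fact Q.Prime] (n W Tc Tt I : ℕ) (ξ : V Q n → V Q n)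
      (U : Finset (V Q n)),
      Par CF X Y Z → (n : ℝ) ≤ Z → Real.exp (Z ^ CF) ≤ W → 1 ≤ Tc → W ^ 5 * Tc ≤ Tt → W ^ 3 ≤ I →
      4 * (I * Tt) ≤ Q → (Tt : ℝ) ≤ τ * Q → (W : ℝ) ^ 2 * τ ≤ 1 → U ⊆ bx Q n (I * Tt) →
      Real.exp (-Y) ≤ ener ξ U (I * Tt) (W ^ 2 * Tt) (W * Tt) τ →
      ∃ (j : Fin n → ℕ) (E Θ : Finset (V Q n)), (∀ i, j i < I) ∧ E ⊆ U ∩ tile Q n Tt j ∧
        Real.exp (-Y ^ CF) * (Tt : ℝ) ^ n ≤ E.card ∧ (Θ.card : ℝ) ≤ Y ^ CF ∧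
        Chart ξ E Θ Tc W (W * τ))
    (hP : Par CF X (Y ^ 3) (Z ^ 3)) (hY : 200 ≤ Y) (hZ : Y ≤ Z) (hn : (n : ℝ) ≤ Z)
    (hW1 : exp ((Z ^ 3) ^ CF) ≤ W) (hW2 : exp (Z ^ 3) ≤ W) (hW : 2 ≤ W) (hT : W ^ 20 ≤ T)
    (hQ : (W * T) ^ 2 ≤ Q)
    (ζ : V Q n → V Q n) (U : Finset (V Q n)) (c Y' G : V Q n → ℂ)
    (hU : U ⊆ bx Q n (W ^ 4 * (T / W ^ 4))) (hc : ∀ h, ‖c h‖ ≤ 1) (hcU : ∀ h, h ∉ U → c h = 0)
    (hY' : ∀ s, ‖Y' s‖ ≤ 1) (hG : ∀ z, ‖G z‖ ≤ 1)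
    (hδ : exp (-(30 * Y ^ 2)) ≤ ‖𝔼 h ∈ bx Q n (W ^ 4 * (T / W ^ 4)), 𝔼 s ∈ bx Q n (W * T),
      c h * Y' s * G (h + s) * ch (ζ h ⬝ᵥ s)‖) :
    ∃ E, E ⊆ U ∧ Pc ζ (W ^ 4) (T / W ^ 4) (T / W ^ 4 / W ^ 5) W (exp (-Y ^ (3 * CF)))
      (Y ^ (3 * CF)) (W * (1 / T)) E := by
  obtain ⟨s1, s2, s3⟩ := sides hW hT
  have w0 : 0 < W := by omega
  have t1 : W ^ 4 * (T / W ^ 4) ≤ T := Nat.mul_div_le _ _
  have c1 : 1 ≤ T / W ^ 4 / W ^ 5 := (Nat.one_le_pow _ _ w0).trans s2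
  have t0 : 1 ≤ T / W ^ 4 := (Nat.one_le_pow _ _ w0).trans s1
  have hT1 : 1 ≤ T := (Nat.one_le_pow _ _ w0).trans hT
  have hWT : W ≤ T := by
    calc W = W ^ 1 := (pow_one W).symm
      _ ≤ W ^ 20 := Nat.pow_le_pow_right w0 (by norm_num)
      _ ≤ T := hT
  have q1 : 4 * (T * T) ≤ Q := le_trans (by nlinarith [Nat.mul_le_mul hW hW]) hQ
  have q2 : W * T ≤ Q := by nlinarith
  generalize hTt : T / W ^ 4 = Tt at *
  have pT : (0 : ℝ) < T := by exact_mod_cast hT1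
  have pW : (1 : ℝ) ≤ W := by exact_mod_cast w0
  have pTt : (0 : ℝ) < Tt := by exact_mod_cast t0
  have t1' : (W : ℝ) ^ 4 * Tt ≤ T := by exact_mod_cast t1
  have d4 : exp (-(30 * Y ^ 2)) ^ 4 = exp (-(120 * Y ^ 2)) := by
    rw [← exp_nat_mul]
    ring_nf
  have key : 100 * ((n : ℝ) + 1) ≤ exp (-(30 * Y ^ 2)) ^ 4 * W := by
    have a1 : (n : ℝ) + 1 ≤ exp Z := by linarith [add_one_le_exp Z]
    have a2 : (100 : ℝ) ≤ exp Z := le_e (by linarith)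
    have a3 : 200 * Z ^ 2 ≤ Z ^ 3 := pw1 (by linarith) le_rfl
    have a4 : Y ^ 2 ≤ Z ^ 2 := pow_le_pow_left₀ (by linarith) hZ 2
    rw [d4]
    calc _ ≤ exp Z * exp Z := by gcongr
      _ ≤ exp (-(120 * Y ^ 2)) * exp (Z ^ 3) := by
        rw [← exp_add, ← exp_add]
        exact exp_le_exp.2 (by nlinarith)
      _ ≤ _ := by gcongr
  have dpos : 0 < exp (-(30 * Y ^ 2)) ^ 4 := by positivity
  have n0 : (0 : ℝ) ≤ n := Nat.cast_nonneg n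
  have k2 : 100 * (n : ℝ) * (W ^ 2 * Tt) ≤ exp (-(30 * Y ^ 2)) ^ 4 * (W ^ 3 * Tt) := by
    calc _ ≤ exp (-(30 * Y ^ 2)) ^ 4 * W * (W ^ 2 * Tt) :=
          mul_le_mul_of_nonneg_right (by linarith) (by positivity)
      _ = _ := by ring
  have w12 : (W : ℝ) ^ 1 ≤ W ^ 2 := pow_le_pow_right₀ pW (by norm_num)
  have w34 : (W : ℝ) ^ 3 ≤ W ^ 4 := pow_le_pow_right₀ pW (by norm_num)
  have k3 : exp (-(30 * Y ^ 2)) ^ 4 * (W ^ 3 * Tt) ≤ exp (-(30 * Y ^ 2)) ^ 4 * (W ^ 4 * Tt) := by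
    gcongr
  have hE := hEN Q n (W ^ 4 * Tt) (W * T) (W ^ 2 * Tt) (W * Tt) _ (1 / T) ζ U c Y' G
    (Nat.mul_pos w0 t0) (Nat.mul_pos (by positivity) t0) (Nat.mul_pos (by positivity) t0)
    (Nat.mul_pos w0 hT1) (by nlinarith) q2 (exp_pos _) (exp_le_one_iff.2 (by nlinarith))
    (by positivity)
    (by
      push_cast
      refine le_trans ?_ (k2.trans k3)
      gcongr
      rwa [pow_one] at w12)
    (by push_cast; exact k2.trans k3)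
    (by
      push_cast
      exact (k2.trans k3).trans (mul_le_mul_of_nonneg_left (by nlinarith) dpos.le))
    (by
      push_cast
      rw [mul_assoc, show 1 / (T : ℝ) * (W * T) = W by field_simp]
      linarith)
    hc hcU hY' hG hδ
  obtain ⟨j, E, Θ, h1, h2, h3, h4, h5⟩ := hFR X (Y ^ 3) (Z ^ 3) (1 / T) Q n W (Tt / W ^ 5) Tt
    (W ^ 4) ζ U hP (hn.trans (by
      have : Z ^ 1 ≤ Z ^ 3 := pw (by linarith) (by norm_num)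
      rwa [pow_one] at this)) hW1 c1 (Nat.mul_div_le _ _)
    (Nat.pow_le_pow_right w0 (by norm_num)) (by nlinarith)
    (by
      rw [one_div, inv_mul_eq_div, le_div_iff₀ pT]
      have : Tt * T ≤ Q := by nlinarith [Nat.one_le_pow 4 W w0]
      exact_mod_cast this)
    (by
      rw [mul_one_div, div_le_one pT]
      have : W ^ 2 ≤ T := (Nat.pow_le_pow_right w0 (by norm_num)).trans hT
      exact_mod_cast this)
    hU (le_trans (by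
      rw [d4, le_div_iff₀ two_pos]
      have a3 : 200 * Y ^ 2 ≤ Y ^ 3 := pw1 hY le_rfl
      have a2 : (2 : ℝ) ≤ exp (Y ^ 2) := le_e (by nlinarith)
      calc exp (-Y ^ 3) * 2 ≤ exp (-Y ^ 3) * exp (Y ^ 2) := by gcongr
        _ ≤ _ := by
          rw [← exp_add]
          exact exp_le_exp.2 (by nlinarith)) hE)
  rw [← pow_mul] at h3 h4
  exact ⟨E, h2.trans inter_subset_left, j, Θ, h1, h2.trans inter_subset_right, h3, h4, h5⟩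

theorem qs {W T Q : ℕ} (hW : 2 ≤ W) (hT : 1 ≤ T) (hQ : (W * T) ^ 2 ≤ Q) :
    4 * (T * T) ≤ Q ∧ W * T ≤ Q ∧ T < Q ∧ W ≤ Q ∧ 2 < Q := by
  have q1 : 4 * (T * T) ≤ Q := le_trans (by nlinarith [Nat.mul_le_mul hW hW]) hQ
  have q0 : 1 ≤ W * T := Nat.mul_pos (by omega) hT
  have q2 : W * T ≤ Q := by nlinarith
  exact ⟨q1, q2, by nlinarith, by nlinarith, by nlinarith⟩

theorem rk {a C J j m : ℕ} {Y : ℝ} (hY : 200 ≤ Y) (hC : a + 6 ≤ C) (hj : (j : ℝ) ≤ Y)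
    (hm : (m : ℝ) ≤ j * Y ^ a) : ((2 * (2 * J) * m : ℕ) : ℝ) ≤ J * Y ^ C := by
  have h1 := pw1 hY (a := a + 1) (b := C) (by omega)
  have h2 : 0 ≤ Y ^ a := by positivity
  have h3 : (m : ℝ) ≤ Y ^ (a + 1) := by
    rw [pow_succ]
    nlinarith
  have h4 : (0 : ℝ) ≤ J := Nat.cast_nonneg _
  have h5 : (0 : ℝ) ≤ m := Nat.cast_nonneg _
  push_cast
  calc _ = J * (4 * (m : ℝ)) := by ring
    _ ≤ _ := mul_le_mul_of_nonneg_left (by linarith) h4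

theorem locNum {n n' r j W T Tt Tc T' T0 : ℕ} {Y Z lam : ℝ} (hY : 200 ≤ Y) (hZ : Y ≤ Z)
    (hn : (n : ℝ) ≤ Z) (hn' : n' ≤ n) (hr : (r : ℝ) ≤ Y) (hj : (j : ℝ) ≤ Y) (hl0 : 0 ≤ lam)
    (hl : lam ≤ exp Y) (hW2 : exp (Z ^ 3) ≤ W) (w0 : 0 < W) (hT1 : 1 ≤ T)
    (t1 : W ^ 4 * Tt ≤ T) (t2 : W ^ 5 * Tc ≤ Tt) (t3 : W * T' * T0 ≤ Tc) :
    2 * (n : ℝ) * (W * (n' * (T' * T0))) ≤ 1 / W * Tt ∧
    2 * (n : ℝ) * (W * (n' * (W * T' * T0))) ≤ 1 / W * (W * T : ℕ) ∧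
    lam * (r * (j * (W * (n * (n' * (W * T' * T0) * (W * (1 / T))))))) ≤ 1 / W := by
  have pW : (1 : ℝ) ≤ W := by exact_mod_cast w0
  have pT : (0 : ℝ) < T := by exact_mod_cast hT1
  have m1 : (W : ℝ) * T' * T0 ≤ Tc := by exact_mod_cast t3
  have m2 : (W : ℝ) ^ 5 * Tc ≤ Tt := by exact_mod_cast t2
  have m3 : (W : ℝ) ^ 4 * Tt ≤ T := by exact_mod_cast t1
  have m4 : (n' : ℝ) ≤ n := by exact_mod_cast hn'
  have ez : Z ≤ exp Z := le_e le_rfl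
  have z3 : 200 * Z ^ 1 ≤ Z ^ 3 := pw1 (by linarith) (by norm_num)
  have m5 : exp Z ^ 5 ≤ W := by
    rw [← exp_nat_mul]
    exact (exp_le_exp.2 (by push_cast; linarith [pow_one Z])).trans hW2
  have e1 : (2 : ℝ) ≤ exp Z := by linarith
  have m6 : 2 * (n : ℝ) * n' ≤ W := by
    calc _ ≤ exp Z * exp Z * exp Z := by gcongr <;> linarith
      _ = exp Z ^ 3 := by ring
      _ ≤ exp Z ^ 5 := pow_le_pow_right₀ (by linarith) (by norm_num)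
      _ ≤ W := m5
  have m7 : lam * r * j * n * n' ≤ W := by
    have : exp Y ≤ exp Z := exp_le_exp.2 hZ
    calc _ ≤ exp Z * exp Z * exp Z * exp Z * exp Z := by gcongr <;> linarith
      _ = exp Z ^ 5 := by ring
      _ ≤ W := m5
  have pTc : (0 : ℝ) ≤ Tc := Nat.cast_nonneg _
  have m8 : (W : ℝ) ^ 9 * Tc ≤ T := by
    calc (W : ℝ) ^ 9 * Tc = (W : ℝ) ^ 4 * ((W : ℝ) ^ 5 * Tc) := by ring
      _ ≤ (W : ℝ) ^ 4 * Tt := by gcongr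
      _ ≤ T := m3
  have pw' : ∀ {p q : ℕ}, p ≤ q → (W : ℝ) ^ p * Tc ≤ W ^ q * Tc := fun h =>
    mul_le_mul_of_nonneg_right (pow_le_pow_right₀ pW h) pTc
  refine ⟨?_, ?_, ?_⟩
  · rw [one_div, inv_mul_eq_div, le_div_iff₀ (by linarith)]
    calc _ = 2 * (n : ℝ) * n' * (W * T' * T0) * W := by ring
      _ ≤ W * Tc * W := by gcongr
      _ = W ^ 2 * Tc := by ring
      _ ≤ Tt := (pw' (by norm_num)).trans m2
  · push_cast
    rw [show 1 / (W : ℝ) * (W * T) = T by field_simp]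
    calc _ = 2 * (n : ℝ) * n' * (W * T' * T0) * W := by ring
      _ ≤ W * Tc * W := by gcongr
      _ = W ^ 2 * Tc := by ring
      _ ≤ T := (pw' (by norm_num)).trans m8
  · rw [le_div_iff₀ (by linarith)]
    calc _ = lam * r * j * n * n' * (W * T' * T0) * W ^ 3 / T := by ring
      _ ≤ W * Tc * W ^ 3 / T := by gcongr
      _ = W ^ 4 * Tc / T := by ring
      _ ≤ 1 := (div_le_one pT).2 ((pw' (by norm_num)).trans m8)

theorem cmpErr {n W T : ℕ} {Y Z κ : ℝ} (hY : 200 ≤ Y) (hZ : Y ≤ Z) (hn : (n : ℝ) ≤ Z)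
    (hW2 : exp (Z ^ 3) ≤ W) (w0 : 0 < W) (hT20 : W ^ 20 ≤ T) (hκ : exp (-Y) ≤ κ) :
    2 * (n : ℝ) * ((T : ℝ) - (W ^ 4 * (T / W ^ 4) : ℕ)) / T * exp Y ≤ κ / 10 := by
  have κ0 : 0 < κ := (exp_pos _).trans_le hκ
  have hT1 : 1 ≤ T := (Nat.one_le_pow _ _ w0).trans hT20
  have z1 : 200 * Z ^ 1 ≤ Z ^ 3 := pw1 (by linarith) (by norm_num)
  rw [pow_one] at z1
  have a1 : (T : ℝ) - (W ^ 4 * (T / W ^ 4) : ℕ) ≤ W ^ 4 := by
    have : T ≤ W ^ 4 + W ^ 4 * (T / W ^ 4) := by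
      have := Nat.lt_mul_div_succ T (show 0 < W ^ 4 by positivity)
      rw [mul_add, mul_one] at this
      omega
    have h' : (T : ℝ) ≤ W ^ 4 + (W ^ 4 * (T / W ^ 4) : ℕ) := by exact_mod_cast this
    linarith
  have a2 : (W : ℝ) ^ 5 ≤ T := by
    exact_mod_cast (Nat.pow_le_pow_right w0 (by norm_num)).trans hT20
  have pT : (0 : ℝ) < T := by exact_mod_cast hT1
  have a3 : 20 * (n : ℝ) * exp Y * exp Y ≤ W := by
    have b1 : exp Y ≤ exp Z := exp_le_exp.2 hZ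
    have b2 : Z ≤ exp Z := le_e le_rfl
    calc _ ≤ exp Z * exp Z * exp Z * exp Z := by gcongr <;> linarith
      _ ≤ exp (Z ^ 3) := by
        rw [← exp_add, ← exp_add, ← exp_add]
        exact exp_le_exp.2 (by linarith)
      _ ≤ W := hW2
  have a4 : 1 ≤ exp Y * κ := by
    calc (1 : ℝ) = exp Y * exp (-Y) := by rw [← exp_add, add_neg_cancel, exp_zero]
      _ ≤ _ := by gcongr
  rw [div_mul_eq_mul_div, div_le_div_iff₀ pT (by norm_num)]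
  calc _ ≤ 2 * (n : ℝ) * W ^ 4 * exp Y * 10 * 1 := by rw [mul_one]; gcongr
    _ ≤ 2 * (n : ℝ) * W ^ 4 * exp Y * 10 * (exp Y * κ) := by gcongr
    _ = κ * (20 * (n : ℝ) * exp Y * exp Y * W ^ 4) := by ring
    _ ≤ κ * (W * W ^ 4) := by gcongr
    _ ≤ κ * T := by rw [← pow_succ']; gcongr

theorem start {W T C : ℕ} {Z : ℝ} (hZ : 200 ≤ Z) (hC : 3 ≤ C) (hW : exp (Z ^ C) ≤ W)
    (hT : Z ^ C * log W ≤ log T) : exp (Z ^ 3) ≤ W ∧ 2 ≤ W ∧ W ^ 20 ≤ T ∧ 200 * Z ≤ Z ^ 3 := by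
  have z3 : Z ^ 3 ≤ Z ^ C := pw hZ hC
  have z1 : 200 * Z ^ 1 ≤ Z ^ 3 := pw1 hZ (by norm_num)
  rw [pow_one] at z1
  have hW2 : exp (Z ^ 3) ≤ W := (exp_le_exp.2 z3).trans hW
  have hW3 : (2 : ℝ) ≤ W := (le_e (by linarith)).trans hW2
  have lw : 0 < log (W : ℝ) := log_pos (by linarith)
  refine ⟨hW2, by exact_mod_cast hW3, ?_, z1⟩
  have h1 : 20 * log (W : ℝ) ≤ log T := le_trans (by gcongr; linarith) hT
  have h2 : (0 : ℝ) < T := by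
    rcases Nat.eq_zero_or_pos T with h | h
    · rw [h, Nat.cast_zero, log_zero] at h1
      linarith
    · exact_mod_cast h
  rw [← Nat.cast_ofNat, ← log_pow, log_le_log_iff (by positivity) h2] at h1
  exact_mod_cast h1

theorem gbd {Y ε θ x : ℝ} (hY : 200 ≤ Y) (h0 : 0 < ε) (h1 : ε ≤ 1 / 100) (t0 : 0 ≤ θ) (t2 : θ ≤ 2)
    (hx : 0 ≤ x ∧ x ≤ exp Y) : |x - (1 - ε) * θ| ≤ exp Y := by
  have e2 : (2 : ℝ) ≤ exp Y := le_e (by linarith)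
  rw [abs_le]
  constructor <;> nlinarith [hx.1, hx.2]

/-- from a class to the rectangle -/
theorem last (hAVG : AVG) (hKILL : KILL) (hCR : CR) {a C J T W K0 j : ℕ} {Y Z lam κ θ : ℝ}
    {ξ : V Q n → Fin r → V Q n} {B : Bil Q n ι} {γ : V Q n → Fin r → ZMod Q}
    {α β : V Q n → ι → ZMod Q} {u Y' f : V Q n → ℝ} {Φ : (Fin r ⊕ ι → ZMod Q) → ℝ} {c0 : V Q n}
    {A : Finset (V Q n)} {b : Fin j → Fin r → ℤ} {E : Fin j → Finset (V Q n)} {η : ℝ}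
    (hY : 200 ≤ Y) (hZ : Y ≤ Z) (hC : a + 6 ≤ C) (hn : (n : ℝ) ≤ Z) (hJ : 1 ≤ J)
    (hJn : J * Y ^ C ≤ n) (hr : (r : ℝ) ≤ Y) (hjr : j ≤ r) (hW2 : exp (Z ^ 3) ≤ W) (hW : 2 ≤ W)
    (hT : W ^ 20 ≤ T) (hQ : (W * T) ^ 2 ≤ Q) (hK : (K0 : ℝ) ≤ exp (10 * Y))
    (hu : U01 u) (hY' : U01 Y') (hf : ∀ z, |f z - θ| ≤ exp Y) (hl0 : 0 ≤ lam) (hl : lam ≤ exp Y)
    (hΦ : LL lam Φ) (hb : ∀ i, b i ∈ Sm (Fin r) K0)
    (hli : LinearIndependent (ZMod Q) fun i => cs Q (b i))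
    (hE : ∀ i, Pc (zt ξ (b i)) (W ^ 4) (T / W ^ 4) (T / W ^ 4 / W ^ 5) W η (Y ^ a)
      (W * (1 / T)) (E i)) (hA : ∀ i, A ⊆ E i)
    (hκ : κ ≤ 𝔼 x ∈ bx Q n (T / W ^ 4), 𝔼 s ∈ bx Q n (W * T),
      (open Classical in if x + c0 ∈ A then u (x + c0) else 0) * Y' s *
      avg (KK ι (Submodule.span (ZMod Q) (Set.range fun i => cs Q (b i)))) Φ
        (arg ξ B γ α β (x + c0) s) * (f (x + c0 + s) - θ)) :
    ∃ (n' T' : ℕ) (x0 : V Q n) (P : V Q n' →ₗ[ZMod Q] V Q n) (C' : Bil Q n' (Fin r ⊕ ι))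
      (Ω : (Fin r ⊕ ι → ZMod Q) → ℝ), Function.Injective P ∧
      Shr n T n' T' (J * Y ^ C) (1 / J) (Z ^ C * log W) ∧ LL lam Ω ∧
      Rect (fun z => f (x0 + P z)) θ T' W C' Ω (κ - 4 * exp Y * (1 / W)) := by
  classical
  obtain ⟨s1, s2, s3⟩ := sides hW hT
  have w0 : 0 < W := by omega
  have t1 : W ^ 4 * (T / W ^ 4) ≤ T := Nat.mul_div_le _ _
  have t2 : W ^ 5 * (T / W ^ 4 / W ^ 5) ≤ T / W ^ 4 := Nat.mul_div_le _ _
  have t0 : 1 ≤ T / W ^ 4 := (Nat.one_le_pow _ _ w0).trans s1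
  have hT1 : 1 ≤ T := (Nat.one_le_pow _ _ w0).trans hT
  obtain ⟨-, q2, q3, -, -⟩ := qs hW hT1 hQ
  have t3 : T / W ^ 4 ≤ T := Nat.div_le_self _ _
  have t4 : T / W ^ 4 / W ^ 5 ≤ T / W ^ 4 := Nat.div_le_self _ _
  generalize T / W ^ 4 = Tt at *
  generalize Tt / W ^ 5 = Tc at *
  have hWc : W ≤ Tc := by
    calc W = W ^ 1 := (pow_one W).symm
      _ ≤ W ^ 11 := Nat.pow_le_pow_right w0 (by norm_num)
      _ ≤ Tc := s2
  have hj : (j : ℝ) ≤ Y := le_trans (by exact_mod_cast hjr) hr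
  have y0 : 0 ≤ Y := by linarith
  have J1 : (1 : ℝ) ≤ J := by exact_mod_cast hJ
  obtain ⟨D0, w, hD, hDm, hw, hbw⟩ := hCR Q (Fin r) j (K0 + 1) b (by omega)
    (fun i => sm_mono (by omega) (hb i)) hli
  have hDW : j.factorial * (K0 + 1) ^ j ≤ W := by
    have := (minor hY hj hK).trans ((exp_le_exp.2 (pow_le_pow_left₀ y0 hZ 3)).trans hW2)
    exact_mod_cast this
  choose jj Θ _ _ _ hΘ hch using hE
  have hcard : (((univ : Finset (Fin j)).biUnion Θ).card : ℝ) ≤ j * Y ^ a := by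
    have h1 : (((univ : Finset (Fin j)).biUnion Θ).card : ℝ) ≤ ∑ i, ((Θ i).card : ℝ) := by
      exact_mod_cast card_biUnion_le
    have h2 := sum_le_card_nsmul univ (fun i => ((Θ i).card : ℝ)) _ fun i _ => hΘ i
    rw [card_univ, Fintype.card_fin, nsmul_eq_mul] at h2
    exact h1.trans h2
  have hrk := rk (J := J) hY hC hj hcard
  have hrn : 2 * (2 * J) * ((univ : Finset (Fin j)).biUnion Θ).card ≤ n := by
    exact_mod_cast hrk.trans hJn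
  obtain ⟨T0, P, h0, hlog, hP, hsm, hkill⟩ := hKILL Q n (2 * J) _ Tc W
    ((univ : Finset (Fin j)).biUnion Θ) le_rfl (by omega) hrn w0 hWc (by omega)
  have hn' : n - 2 * (2 * J) * ((univ : Finset (Fin j)).biUnion Θ).card ≤ n := Nat.sub_le _ _
  have hn2 : (n : ℝ) ≤ (n - 2 * (2 * J) * ((univ : Finset (Fin j)).biUnion Θ).card : ℕ) +
      J * Y ^ C := by
    rw [Nat.cast_sub hrn]
    linarith
  generalize n - 2 * (2 * J) * ((univ : Finset (Fin j)).biUnion Θ).card = n' at *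
  have lw : 0 ≤ log (W : ℝ) := log_natCast_nonneg _
  have zc : 200 * Z ^ 0 ≤ Z ^ C := pw1 (by linarith) (by omega)
  obtain ⟨v1, v2⟩ := newSide (Λ := Z ^ C * log W) hW hJ s2 s3 hT1 h0 hlog
    (mul_le_mul_of_nonneg_right (by linarith [pow_zero Z]) lw)
  have u1 : W * (Tc / T0 / W) ≤ Tc / T0 := Nat.mul_div_le _ _
  have u2 : T0 * (Tc / T0) ≤ Tc := Nat.mul_div_le _ _
  have u3 : Tc / T0 ≤ Tc := Nat.div_le_self _ _
  have u4 : Tc / T0 / W ≤ Tc / T0 := Nat.div_le_self _ _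
  generalize Tc / T0 = TP at *
  generalize TP / W = T' at *
  have u5 : 1 ≤ TP := v1.trans u4
  have pW : (1 : ℝ) ≤ W := by exact_mod_cast w0
  have pT : (0 : ℝ) < T := by exact_mod_cast hT1
  choose Ξ hΞ using fun i => hch i n' T0 TP P hn' u5 u2 hsm fun θ hθ m =>
    (hkill θ (mem_biUnion.2 ⟨i, mem_univ i, hθ⟩) m).trans (by
      have : (0 : ℝ) < TP := by exact_mod_cast u5
      have : (TP : ℝ) ≤ Tc := by exact_mod_cast u3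
      gcongr)
  obtain ⟨n1, n2, n3⟩ := locNum (T' := T') (T0 := T0) hY hZ hn hn' hr hj hl0 hl hW2 w0 hT1 t1 t2
    ((Nat.mul_le_mul_right T0 u1).trans (by rwa [mul_comm]))
  obtain ⟨x0, C', hR⟩ := loc Q n n' r j Tt (W * T) T' W T0 TP W ι lam (W * (1 / T)) (1 / W) (exp Y)
    κ θ ξ B γ α β u Y' f _ c0 A b w D0 P Ξ t0 (by omega) (Nat.mul_pos w0 hT1) q2 v1 w0 hu hY' hf
    hl0 (by positivity) ((hAVG Q _ _ Φ).1 lam hΦ) (inv hAVG b Φ) hD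
    (hDm.trans (by exact_mod_cast hDW)) (fun i => sm_mono hDW (hw i)) hbw hsm u1
    (fun i h hh h' hh' => hΞ i h (hA i hh) h' (hA i hh'))
    (by rw [div_le_one (by linarith)]; exact pW) n1 n2 n3 hκ
  refine ⟨n', T', x0, (D0 : ZMod Q) • P, C', _, fun x y hxy => hP ?_,
    ⟨hn2, hn', v1, by omega, v2⟩, (hAVG Q _ _ Φ).1 lam hΦ, hR⟩
  exact smul_right_injective _ hD hxy

end Top

open Vale.Agent.P057Z.Ke Num Top Classical in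
theorem drop_of (hFR : FR) (hEN : EN) (hAVG : AVG) (hKILL : KILL) (hCR : CR) (hTIL : TIL)
    (hDRP : DRP) (hCLS : CLS) (hSMO : SMO) : DROP := by
  intro ε hε hε1
  obtain ⟨CF, hFR⟩ := hFR
  refine ⟨3 * CF + 200 + ⌈8 / ε⌉₊, ?_⟩
  intro X Y Z Q _ n r J T W ι _ _ f θ ρn ρ5 κ ξ B hP hn hJ hJZ hJn hr hι hW hT hQ hf hθ0 hθ2 hρ5
    hρ hρn hκ hB hS3
  generalize hCdef : 3 * CF + 200 + ⌈8 / ε⌉₊ = C at *
  obtain ⟨hCX, hXY, hZ, hZX⟩ := hP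
  have hC' : (3 * CF + 200 + ⌈8 / ε⌉₊ : ℝ) = C := by exact_mod_cast hCdef
  have c1 := Nat.le_ceil (8 / ε)
  have c2 : (0 : ℝ) ≤ CF := Nat.cast_nonneg _
  have c3 : (0 : ℝ) ≤ ⌈8 / ε⌉₊ := Nat.cast_nonneg _
  have hY : 200 ≤ Y := by linarith
  have hZ' : 200 ≤ Z := by linarith
  obtain ⟨hW2, hW4, hT20, z1⟩ := start hZ' (by omega) hW hT
  have w0 : 0 < W := by omega
  obtain ⟨s1, -, -⟩ := sides hW4 hT20
  have t1 : W ^ 4 * (T / W ^ 4) ≤ T := Nat.mul_div_le _ _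
  have t0 : 1 ≤ T / W ^ 4 := (Nat.one_le_pow _ _ w0).trans s1
  have hT1 : 1 ≤ T := (Nat.one_le_pow _ _ w0).trans hT20
  obtain ⟨-, -, q2, q3, q5⟩ := qs hW4 hT1 hQ
  replace q2 := q2.le
  have q4 : (W : ℝ) ≤ Q := by exact_mod_cast q3
  have κ0 : 0 < κ := (exp_pos _).trans_le hκ
  have ρ0 : 0 < ρ5 := (exp_pos _).trans_le hρ5
  obtain ⟨u, Y', γ, α, β, Φ, K0, hu, hY', hK, hΦ, hFA, h1⟩ := hSMO Q n r T W ι Y ε θ ρn ρ5 κ f ξ B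
    hε hε1 (by linarith) hr hι ((exp_le_exp.2 (by linarith)).trans (hW2.trans q4))
    (fun x => (hf x).1) hθ0 hρ5 hρ κ0.le hS3
  have hg : ∀ z, |f z - (1 - ε) * θ| ≤ exp Y := fun z => gbd hY hε hε1 hθ0 hθ2 (hf z)
  have bs := bx_nonempty (Q := Q) (n := n) (Nat.mul_pos w0 hT1)
  have h2 := (hTIL Q n).1 T (W ^ 4 * (T / W ^ 4)) (exp Y) (fun h => 𝔼 s ∈ bx Q n (W * T),
    u h * Y' s * Φ (arg ξ B γ α β h s) * (f (h + s) - (1 - ε) * θ))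
    (Nat.mul_pos (by positivity) t0) t1 q2 fun h => (abs_expect_le _ _).trans
      (expect_le bs fun s _ => bd (hu h) (hY' s) (hΦ.pos _).le (hΦ.le_one _) (hg _))
  have h3 := cmpErr hY hZ hn hW2 w0 hT20 hκ
  have hPar : Par CF X (Y ^ 3) (Z ^ 3) := by
    have a1 : Y ^ 1 ≤ Y ^ 3 := pw hY (by norm_num)
    refine ⟨by linarith, by linarith [pow_one Y], pow_le_pow_left₀ (by linarith) hZ 3, ?_⟩
    rw [← pow_mul]
    exact (pw hZ' (by omega)).trans hZX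
  obtain ⟨Fam, f1, f2, f3⟩ := fam (K0 := K0) ξ (exp_pos (-Y ^ (3 * CF))) t0
    (fe hEN hFR hPar hY hZ hn (by
      rw [← pow_mul]
      exact (exp_le_exp.2 (pw hZ' (by omega))).trans hW) hW2 hW4 hT20 hQ)
  have h4 := hDRP Q n r _ (W * T) K0 ι _ _ _ (exp Y) ξ B γ α β u Y' (fun z => f z - (1 - ε) * θ) Φ
    (Ws K0 Fam) q5 (Nat.mul_pos (by positivity) t0) (Nat.mul_pos w0 hT1) hB hu hY'
    (exp_pos _) hg (exp_pos _).le hFA f3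
  have h5 := dropErr hY hκ
  have h6 : κ / 2 ≤ 𝔼 h ∈ bx Q n (W ^ 4 * (T / W ^ 4)), 𝔼 s ∈ bx Q n (W * T),
      u h * Y' s * avg (KK ι (Ws K0 Fam h)) Φ (arg ξ B γ α β h s) * (f (h + s) - (1 - ε) * θ) := by
    simp only [mul_sub (u _ * Y' _), sub_mul (u _ * Y' _ * _), expect_sub_distrib] at h4
    linarith [(abs_le.1 h2).2, (abs_le.1 h4).2]
  obtain ⟨j0, hj0, h7⟩ := (hTIL Q n).2.1 (W ^ 4) (T / W ^ 4)
    (fun h => 𝔼 s ∈ bx Q n (W * T), u h * Y' s *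
      avg (KK ι (Ws K0 Fam h)) Φ (arg ξ B γ α β h s) * (f (h + s) - (1 - ε) * θ))
    (Nat.one_le_pow _ _ w0) t0 (t1.trans q2)
  obtain ⟨j, b, E, A, hjr, hb, hli, hE, hA, h8⟩ := hCLS Q n r (T / W ^ 4) (W ^ 4) K0 _ (κ / 2) Fam j0
    (fun h W' => 𝔼 s ∈ bx Q n (W * T), u h * Y' s *
      avg (KK ι W') Φ (arg ξ B γ α β h s) * (f (h + s) - (1 - ε) * θ))
    t0 (t1.trans q2) hj0 (exp_pos (-Y ^ (3 * CF))) (by positivity)
    (fun k E hE => by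
      obtain ⟨j, Θ, a1, a2, a3, -⟩ := f1 k E hE
      exact ⟨j, a1, a2, a3⟩) f2 (h6.trans h7)
  obtain ⟨n', T', x0, P, C', Ω, g1, g2, g3, u', Y'', α', β', g4, g5, g6⟩ := last (a := 3 * CF)
    (C := C) (B := B) (γ := γ) (α := α) (β := β) (c0 := ctr Q (T / W ^ 4) j0) hAVG hKILL hCR hY hZ
    (by omega) hn hJ hJn hr hjr hW2 hW4 hT20 hQ hK hu hY' hg (by positivity)
    (by
      rw [div_le_iff₀ ρ0]
      calc (1 : ℝ) = exp Y * exp (-Y) := by rw [← exp_add, add_neg_cancel, exp_zero]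
        _ ≤ _ := by gcongr) hΦ hb hli (fun i => f1 _ _ (hE i)) hA
    (h8.trans (le_of_eq (expect_congr rfl fun x _ => by
      split_ifs
      · rfl
      · simp)))
  exact ⟨n', T', x0, P, C', Ω, g1, g2, g3, u', Y'', α', β', g4, g5,
    (lastErr hY hZ (by omega) hW hκ (by positivity) (classes hY hr hK)).trans g6⟩

end

end Vale.Agent.P057Z.Dr
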